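import Vale.Agent.P097.LR.Defs

/-! # P097 / LR : the elliptic function of the leaves (statements)

`Et b t = exp (i Ψ(t))`, where `Ψ` is the normal angle of an ellipse as a function of its Lazutkin
coordinate `t` (period `1`), `b = K'/(4K)` (so that `t = i b` is an isotropic point).
Product formula (not needed):
`Et = z ∏_{n ≥ 0} ((1 - q^{2n+1} z⁻²)/(1 - q^{2n+1} z²))^{(-1)^n}`, `z = e^{2πit}`, `q = e^{-4πb}`. -/

set_option linter.all false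

open scoped Topology
open Filter

namespace Vale.Agent.P097.LR

open Vale.Agent.P097

noncomputable def Et (b t : ℂ) : ℂ :=
  Complex.exp (2 * Real.pi * Complex.I * t) *
    jacobiTheta₂ (2 * t + 2 * Complex.I * b + 1 / 2) (8 * Complex.I * b) /
      jacobiTheta₂ (2 * t - 2 * Complex.I * b + 1 / 2) (8 * Complex.I * b)

/-- [TZ] the zeros of Mathlib's theta function are exactly `(1 + τ)/2 + ℤ + τℤ`, and simple. -/
def TZ : Prop := ∀ τ : ℂ, 0 < τ.im →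
  (∀ z : ℂ, jacobiTheta₂ z τ = 0 ↔ ∃ m n : ℤ, z = (1 + τ) / 2 + m + n * τ) ∧
  ∀ z : ℂ, jacobiTheta₂ z τ = 0 → jacobiTheta₂' z τ ≠ 0

/-- [EF] elementary properties of `Et` (from TZ and the quasi-periodicity of theta). -/
def EFac : Prop :=
  JD (fun t b => Et b t) {p | 0 < p.2.re ∧ -p.2.re < p.1.im ∧ p.1.im < 3 * p.2.re} ∧
  ∀ b : ℂ, 0 < b.re →
    (∀ t, Et b (t + 1 / 2) = -Et b t) ∧
    (∀ t : ℂ, -b.re < t.im → t.im < b.re → Et b (-t) * Et b t = 1) ∧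
    (∀ t : ℂ, -b.re < t.im → t.im < b.re → Et b (t + 2 * Complex.I * b) * Et b t = -1) ∧
    (∀ t : ℂ, -b.re < t.im → t.im < b.re →
      (starRingEnd ℂ) (Et b t) * Et ((starRingEnd ℂ) b) ((starRingEnd ℂ) t) = 1) ∧
    (∀ t : ℂ, -b.re < t.im → t.im < 3 * b.re →
      (Et b t = 0 ↔ ∃ k : ℤ, t = Complex.I * b + k / 2)) ∧
    (∀ t : ℂ, -b.re < t.im → t.im < 3 * b.re → Et b (2 * Complex.I * b - t) = -Et b t) ∧
    deriv (Et b) (Complex.I * b) ≠ 0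

noncomputable def e0 (b : ℂ) : ℂ := deriv (Et b) 0
noncomputable def e1 (b : ℂ) : ℂ := deriv (Et b) (Complex.I * b)

/-- modulus: `h² ∝ 1 + mC cos 2ψ`. -/
noncomputable def mC (b : ℂ) : ℂ := 2 * e1 b ^ 2 / (e0 b ^ 2 - 2 * e1 b ^ 2)

/-- [ODE] (Liouville: `(E'/E)² - e₁² (E² + E⁻²)` is elliptic for the periods `1/2`, `2 i b`, and
regular at `i b`, where `E` is odd). -/
def ODE : Prop := ∀ b : ℂ, 0 < b.re → ∀ t : ℂ, -b.re < t.im → t.im < 3 * b.re →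
  deriv (Et b) t ^ 2 = (e0 b ^ 2 - 2 * e1 b ^ 2) * Et b t ^ 2 + e1 b ^ 2 * (1 + Et b t ^ 4)

/-- [RPOS] signs for real `b`: `Et b` is unimodular on the real line, `Ψ' > 0`, `0 < m < 1`. -/
def RPOS : Prop := ∀ b : ℝ, 0 < b →
  (∃ C m : ℝ, 0 < C ∧ 0 < m ∧ m < 1 ∧ mC b = m ∧ e0 b ^ 2 - 2 * e1 b ^ 2 = -(C ^ 2 : ℝ)) ∧
  ∃ Ψ : ℝ → ℝ, (∀ x, AnalyticAt ℝ Ψ x) ∧ (∀ x, 0 < deriv Ψ x) ∧ Ψ 0 = 0 ∧
    (∀ x, Ψ (x + 1) = Ψ x + 2 * Real.pi) ∧ (∀ x, Ψ (-x) = -Ψ x) ∧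
    ∀ x : ℝ, Et b x = Complex.exp (Ψ x * Complex.I)

/-- [PER] every modulus occurs, and `m'(b) ≠ 0` (`b = I₂(m)/I₁(m)` with
`I₁ = ∫_0^{2π} (1 + m cos 2ψ)^{-1/2} dψ`, `I₂ = ∫_0^∞ (1 + m cosh 2χ)^{-1/2} dχ`; `b` is strictly
decreasing and differentiable in `m`). -/
def PER : Prop := ∀ m : ℝ, 0 < m → m < 1 → ∃ b : ℝ, 0 < b ∧ mC b = m ∧
  AnalyticAt ℂ mC b ∧ deriv mC b ≠ 0

noncomputable def cA (a c : ℝ) : ℝ := (a ^ 2 + c ^ 2) / 2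
noncomputable def cB (a c : ℝ) : ℝ := (a ^ 2 - c ^ 2) / 2

/-- Parameters of the leaf `w`: `β w` = the number `b` of the leaf, `J w` = its Joachimsthal
constant (`sin δ = J h`). -/
structure PAR (a c b₀ r : ℝ) (β J : ℂ → ℂ) : Prop where
  hb₀ : 0 < b₀
  hr : 0 < r
  dβ : DifferentiableOn ℂ β (Metric.ball 0 r)
  dJ : DifferentiableOn ℂ J (Metric.ball 0 r)
  β0 : β 0 = b₀
  βev : ∀ w : ℂ, ‖w‖ < r → β (-w) = β w
  Jodd : ∀ w : ℂ, ‖w‖ < r → J (-w) = -J w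
  J' : deriv J 0 ≠ 0
  Jne : ∀ w : ℂ, ‖w‖ < r → w ≠ 0 → J w ≠ 0
  βre : ∀ w : ℝ, |w| < r → (β w).im = 0
  Jre : ∀ w : ℝ, |w| < r → (J w).im = 0
  Jpos : ∀ w : ℝ, 0 < w → w < r → 0 < (J w).re ∧ (J w).re * a < 1
  near : ∀ w : ℂ, ‖w‖ < r → ‖β w - b₀‖ < b₀ / 8 ∧ r < b₀ / 8
  start : ∀ w : ℂ, ‖w‖ < r →
    Et (β w) (w / 2) - Et (β w) (-(w / 2)) = 2 * Complex.I * a * J w
  mod : ∀ w : ℂ, ‖w‖ < r →
    mC (β w) * (cA a c - J w ^ 2 * (cA a c ^ 2 - cB a c ^ 2)) = cB a c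

/-- [PARE] existence of the parameters (from PER, RPOS, ODE and the analytic inverse function
theorem: `J ↦ b` by inverting `mC`, then `J ↦ w` by inverting `Et b` at `1`, then invert `J ↦ w`). -/
def PARE : Prop := ∀ a c : ℝ, 0 < c → c < a → ∃ (b₀ r : ℝ) (β J : ℂ → ℂ), PAR a c b₀ r β J

/-- [BQ] the biquadratic relation between the directions of consecutive lines, for all complex
phases (real phases by Euler's addition argument: along `ψ ↦ (ψ - δ, ψ + δ)`, `sin δ = J h(ψ)`,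
both ends move with the same speed `dθ / √(A_J + B cos 2θ)`; then analytic continuation in `t` and
`w`). The sine relation on the real line is included. -/
def BQ : Prop := ∀ a c : ℝ, 0 < c → c < a → ∀ (b₀ r : ℝ) (β J : ℂ → ℂ), PAR a c b₀ r β J →
  ∃ r' : ℝ, 0 < r' ∧ r' ≤ r ∧ ∀ t w : ℂ, ‖w‖ < r' → -(b₀ / 4) < t.im → t.im < 5 * b₀ / 2 →
    (Et (β w) (t + w / 2) - Et (β w) (t - w / 2)) ^ 2 + 4 * J w ^ 2 *
      (cA a c * (Et (β w) (t + w / 2) * Et (β w) (t - w / 2)) +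
        cB a c / 2 * (1 + (Et (β w) (t + w / 2) * Et (β w) (t - w / 2)) ^ 2)) = 0

/-- The bounce point in the coordinate `ζ = (a cos ψ + i c sin ψ)/h(ψ)` of the conic. -/
noncomputable def ZE (a c : ℝ) (β J : ℂ → ℂ) (t w : ℂ) : ℂ :=
  if w = 0 then
    deriv (Et (β 0)) t / (Complex.I * deriv J 0 * ((a + c) + (a - c) * Et (β 0) t ^ 2))
  else
    (Et (β w) (t + w / 2) - Et (β w) (t - w / 2)) /
      (Complex.I * J w * ((a + c) + (a - c) * (Et (β w) (t + w / 2) * Et (β w) (t - w / 2))))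

/-- [LFC] the complex data. Facts to use: `ZE² = ((a-c) + (a+c) y)/((a+c) + (a-c) y)` with
`y = E₊ E₋`, so `ZE² - s² = 4 a c y / ((a+c)((a+c)+(a-c) y))`, `s² = (a-c)/(a+c)`; `E₊`, `E₋` vanish
simply at `i β w ∓ w/2` (and `+ k/2`); `∂_t ZE(t, 0) = const · E/((a+c)+(a-c)E²)`; `tI 0 w = i β w`,
`tI 1 w = i β w + 1/2`; `|E| ≤ 1` for `0 ≤ Im t ≤ 2 Re b`. -/
def LFC : Prop := ∀ a c : ℝ, 0 < c → c < a → ∀ (b₀ r : ℝ) (β J : ℂ → ℂ), PAR a c b₀ r β J →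
  ∃ κ r₁ s₁ tI U, r₁ ≤ r ∧ LF b₀ κ r₁ (ZE a c β J) s₁ tI U

/-- [LRE] the real data: `Ψ₀` from RPOS at `b₀`; `X₀ t w = Ψ₀⁻¹ ((Ψ_w (t + w/2) + Ψ_w (t - w/2))/2)`,
`Ψ_w` = the function of RPOS at `β w`. -/
def LRE : Prop := ∀ a c : ℝ, 0 < c → c < a → ∀ (b₀ r : ℝ) (β J : ℂ → ℂ), PAR a c b₀ r β J →
  ∃ r₂ X₀ Ψ₀, 0 < r₂ ∧ RX r₂ (ZE a c β J) X₀ ∧ EL a c r₂ X₀ Ψ₀

end Vale.Agent.P097.LR
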