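import Vale.Agent.P097.LR.EDefs

/-! # P097 / LR : LFE from PARE, LFC, LRE -/

set_option linter.all false

open Filter Topology

namespace Vale.Agent.P097.LR

theorem Iso.mono {x₁ : ℂ} {κ r r' : ℝ} {s₁ : ℂ} {Z : ℂ → ℂ → ℂ} {tI : ℂ → ℂ} {U : ℂ → ℂ → ℂ}
    (I : Iso x₁ κ r s₁ Z tI U) (h0 : 0 < r') (h : r' ≤ r) : Iso x₁ κ r' s₁ Z tI U where
  hκ := I.hκ
  hr := h0
  dI := I.dI.mono (Metric.ball_subset_ball h)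
  I0 := I.I0
  Iev w hw := I.Iev w (lt_of_lt_of_le hw h)
  dU := by
    apply I.dU.mono
    rintro ⟨τ, w⟩ ⟨h1, h2⟩
    exact ⟨h1, lt_of_lt_of_le h2 h⟩
  U0 := I.U0
  Ure τ w h1 h2 := I.Ure τ w h1 (lt_of_lt_of_le h2 h)
  Uev τ w h1 h2 := I.Uev τ w h1 (lt_of_lt_of_le h2 h)
  loc τ w h1 h2 := I.loc τ w h1 (lt_of_lt_of_le h2 h)

theorem LF.mono {b κ r r' : ℝ} {Z : ℂ → ℂ → ℂ} {s₁ : Fin 2 → ℂ} {tI : Fin 2 → ℂ → ℂ}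
    {U : Fin 2 → ℂ → ℂ → ℂ} (L : LF b κ r Z s₁ tI U) (h0 : 0 < r') (h : r' ≤ r) :
    LF b κ r' Z s₁ tI U where
  hκ := L.hκ
  hκb := L.hκb
  hr := h0
  dZ := by
    apply L.dZ.mono
    rintro ⟨t, w⟩ ⟨h1, h2, h3⟩
    exact ⟨h1, h2, lt_of_lt_of_le h3 h⟩
  per t w h1 h2 h3 := L.per t w h1 h2 (lt_of_lt_of_le h3 h)
  even t w h1 h2 h3 := L.even t w h1 h2 (lt_of_lt_of_le h3 h)
  dne := L.dne
  iso j := (L.iso j).mono h0 h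
  near j w hw := L.near j w (lt_of_lt_of_le hw h)

theorem RX.mono {r r' : ℝ} {Z : ℂ → ℂ → ℂ} {X₀ : ℝ → ℝ → ℝ} (R : RX r Z X₀) (h : r' ≤ r) :
    RX r' Z X₀ where
  cont := R.cont.mono (fun p hp => lt_of_lt_of_le hp h)
  zero := R.zero
  per t w hw := R.per t w (lt_of_lt_of_le hw h)
  even t w hw := R.even t w (lt_of_lt_of_le hw h)
  eq t w hw := R.eq t w (lt_of_lt_of_le hw h)

theorem EL.mono {a c r r' : ℝ} {X₀ : ℝ → ℝ → ℝ} {Ψ₀ : ℝ → ℝ} (E : EL a c r X₀ Ψ₀) (h : r' ≤ r) :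
    EL a c r' X₀ Ψ₀ where
  an := E.an
  dpos := E.dpos
  per := E.per
  leaf w h0 hw := E.leaf w h0 (lt_of_lt_of_le hw h)

theorem lfe_of (hP : PARE) (hC : LFC) (hR : LRE) : LFE := by
  intro a c hc hca
  obtain ⟨b₀, r, β, J, P⟩ := hP a c hc hca
  obtain ⟨κ, r₁, s₁, tI, U, hr₁, L⟩ := hC a c hc hca b₀ r β J P
  obtain ⟨r₂, X₀, Ψ₀, hr₂, R, E⟩ := hR a c hc hca b₀ r β J P
  refine ⟨b₀, κ, min r₁ r₂, ZE a c β J, s₁, tI, U, X₀, Ψ₀,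
    L.mono (lt_min L.hr hr₂) (min_le_left _ _), R.mono (min_le_right _ _),
    E.mono (min_le_right _ _)⟩

end Vale.Agent.P097.LR
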