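import Vale.Agent.P097.FD.Defs

/-! # P097 / LR : linear rigidity of every non-circular ellipse (statements)

Owner of this file: helper164.  Nothing here is a theorem; every `def ... : Prop` in the second
half is the exact statement of one block. -/

set_option linter.all false

open scoped ContDiff Topology
open Filter

namespace Vale.Agent.P097.LR

open Vale.Agent.P097

/-! ## 1. Complex analysis half: data -/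

/-- `f` is jointly holomorphic on the (open) set `S`. -/
def JD (f : ℂ → ℂ → ℂ) (S : Set (ℂ × ℂ)) : Prop :=
  DifferentiableOn ℂ (fun p : ℂ × ℂ => f p.1 p.2) S

/-- Loss constant. -/
noncomputable def eps : ℝ := 1 / 100000

/-- The region `|w| < ρ`, `-κ < Im t < β - |Im w| / 2` of pairs `(t, w)`. -/
def RG (κ β ρ : ℝ) : Set (ℂ × ℂ) :=
  {p | ‖p.2‖ < ρ ∧ -κ < p.1.im ∧ p.1.im + |p.2.im| / 2 < β}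

/-- Slit disc around `s` of radius `R`, slit in the direction of the (nonzero) number `u`. -/
def SB (s u : ℂ) (R : ℝ) : Set ℂ := {ζ | ‖ζ - s‖ < R ∧ ∀ p : ℝ, 0 ≤ p → ζ - s ≠ p * u}

/-- Local data at an isotropic point `x₁` (`w` = rotation number, `t` = phase of the bounce,
`Z t w` = the bounce point in the rational coordinate of the conic, `tI w` = phase of the
isotropic line, where the double zero of `Z t 0 - s₁` splits into the zeros `tI w ± w / 2`). -/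
structure Iso (x₁ : ℂ) (κ r : ℝ) (s₁ : ℂ) (Z : ℂ → ℂ → ℂ) (tI : ℂ → ℂ) (U : ℂ → ℂ → ℂ) :
    Prop where
  hκ : 0 < κ
  hr : 0 < r
  dI : DifferentiableOn ℂ tI (Metric.ball 0 r)
  I0 : tI 0 = x₁
  Iev : ∀ w : ℂ, ‖w‖ < r → tI (-w) = tI w
  dU : JD U {p | ‖p.1‖ < κ ∧ ‖p.2‖ < r}
  U0 : U 0 0 ≠ 0
  Ure : ∀ τ w : ℝ, |τ| < κ → |w| < r → (U τ w).im = 0
  Uev : ∀ τ w : ℂ, ‖τ‖ < κ → ‖w‖ < r → U (-τ) w = U τ w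
  loc : ∀ τ w : ℂ, ‖τ‖ < κ → ‖w‖ < r → Z (tI w + τ) w = s₁ + (τ ^ 2 - w ^ 2 / 4) * U τ w

/-- The isotropic point number `k` on the line `Im x = b`. -/
noncomputable def xi (b : ℝ) (k : ℤ) : ℂ := b * Complex.I + k / 2

/-- The leaf family of a non-circular ellipse seen from the complex domain:
`Z t w` = the bounce point of phase `t` on the leaf of rotation number `w`. -/
structure LF (b κ r : ℝ) (Z : ℂ → ℂ → ℂ) (s₁ : Fin 2 → ℂ) (tI : Fin 2 → ℂ → ℂ)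
    (U : Fin 2 → ℂ → ℂ → ℂ) : Prop where
  hκ : 0 < κ
  hκb : κ < b
  hr : 0 < r
  dZ : JD Z {p | -κ < p.1.im ∧ p.1.im < b + κ ∧ ‖p.2‖ < r}
  per : ∀ t w : ℂ, -κ < t.im → t.im < b + κ → ‖w‖ < r → Z (t + 1) w = Z t w
  even : ∀ t w : ℂ, -κ < t.im → t.im < b + κ → ‖w‖ < r → Z t (-w) = Z t w
  dne : ∀ t : ℂ, -κ < t.im → t.im < b + κ → (∀ k : ℤ, t ≠ xi b k) →
    deriv (fun t => Z t 0) t ≠ 0
  iso : ∀ j : Fin 2, Iso (xi b (j : ℕ)) κ r (s₁ j) Z (tI j) (U j)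
  /-- `tI w` stays close to the isotropic point, so that all arguments of `Z` in `Iso.loc` with
  `‖τ‖ < κ / 2` lie in the domain of `Z`. -/
  near : ∀ j : Fin 2, ∀ w : ℂ, ‖w‖ < r → ‖tI j w - xi b (j : ℕ)‖ < κ / 2

/-- The real bounce coordinate: `X₀ t w` is the phase (on the leaf `0`, i.e. the Lazutkin
coordinate) of the bounce of phase `t` on the leaf `w`. -/
structure RX (r : ℝ) (Z : ℂ → ℂ → ℂ) (X₀ : ℝ → ℝ → ℝ) : Prop where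
  cont : ContinuousOn (fun p : ℝ × ℝ => X₀ p.1 p.2) {p | |p.2| < r}
  zero : ∀ t, X₀ t 0 = t
  per : ∀ t w : ℝ, |w| < r → X₀ (t + 1) w = X₀ t w + 1
  even : ∀ t w : ℝ, |w| < r → X₀ t (-w) = X₀ t w
  eq : ∀ t w : ℝ, |w| < r → Z (X₀ t w) 0 = Z t w

/-- The resonance conditions. -/
def Van (r : ℝ) (X₀ : ℝ → ℝ → ℝ) (γ : ℂ → ℂ) : Prop :=
  ∀ n : ℕ, 0 < n → ∀ p : ℤ, p ≠ 0 → |(p : ℝ) / n| < r →
    ∫ t in (0 : ℝ)..1, γ (X₀ t ((p : ℝ) / n)) *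
      Complex.exp (2 * Real.pi * Complex.I * n * t) = 0

/-- Output of the complex analysis half. -/
structure AOut (b δ κ₀ : ℝ) (γ Γ : ℂ → ℂ) (A : Fin 2 → ℂ) : Prop where
  hδ : 0 < δ
  dΓ : DifferentiableOn ℂ Γ {x | -κ₀ < x.im ∧ x.im < b + δ ∧ ∀ k : ℤ, x ≠ xi b k}
  eq : ∀ x : ℂ, |x.im| < κ₀ → Γ x = γ x
  per : ∀ x : ℂ, -κ₀ < x.im → x.im < b + δ → Γ (x + 1) = Γ x
  refl : ∀ x : ℂ, |x.im - b| < δ → (∀ k : ℤ, x ≠ xi b k) → Γ (2 * b * Complex.I - x) = Γ x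
  pole : ∀ j : Fin 2, ∃ f : ℂ → ℂ, AnalyticAt ℂ f (xi b (j : ℕ)) ∧
    ∀ᶠ x in 𝓝[≠] (xi b (j : ℕ)), Γ x = A j / (x - xi b (j : ℕ)) ^ 2 + f x

/-! ## 2. Complex analysis half: blocks -/

/-- Output of the V-lemma: `Q (s, w) = w V(s, w)`. -/
structure VOut (κ β ρ : ℝ) (G H Q : ℂ → ℂ → ℂ) : Prop where
  dH : JD H {p | ‖p.2‖ < ρ ∧ -κ < p.1.im}
  dQ : JD Q {p | ‖p.2‖ < ρ ∧ p.1.im < β}
  eq : ∀ s w : ℂ, ‖w‖ < ρ → -κ < s.im → s.im + |w.im| / 2 < β →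
    Q (s + w / 2) w - Q (s - w / 2) w = w * (G s w - H s w)

/-- [VL] V-lemma. `H = G₀(w) + ∑_{N > 0} G_N(w) e^{2 π i N t}`,
`Q = ∑_{N < 0} w G_N(w) e^{2 π i N s} / (2 i sin (π N w))`; bound of the coefficients on the circle
`|w| = r_N`, `N r_N ∈ ℤ + 1/2`, and the maximum principle. -/
def VL : Prop := ∀ (κ β ρ : ℝ) (G : ℂ → ℂ → ℂ), 0 < κ → 0 < ρ → 2 * ρ ≤ β →
  JD G (RG κ β (2 * ρ)) → (∃ M : ℝ, ∀ p ∈ RG κ β (2 * ρ), ‖G p.1 p.2‖ ≤ M) →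
  (∀ t w : ℂ, (t, w) ∈ RG κ β (2 * ρ) → G (t + 1) w = G t w) →
  (∀ n : ℕ, 0 < n → ∀ p : ℤ, p ≠ 0 → |(p : ℝ) / n| < 2 * ρ →
    ∫ t in (0 : ℝ)..1, G t ((p : ℝ) / n : ℝ) *
      Complex.exp (2 * Real.pi * Complex.I * n * t) = 0) →
  ∃ H Q : ℂ → ℂ → ℂ, VOut κ β ρ G H Q

/-- [K0] kink lemma at a regular point `x₀`. On the circle `|w| = ρ/2` extend `Q` by
`Q(s) = Q(s ∓ w) ± w g(s ∓ w/2)` for `± Im w ≥ 0` to `Im s < Im x₀ - eps ρ + |Im w| / 2`, and take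
`(2 π i)⁻¹ ∮ Q(s' - i w²/(4ρ), w) dw / w`. -/
def K0 : Prop := ∀ (x₀ : ℂ) (σ ρ : ℝ) (g Q : ℂ → ℂ → ℂ), 0 < ρ → 100 * ρ < σ →
  JD g {p | ‖p.2‖ < ρ ∧ ‖p.1 - x₀‖ < σ ∧ p.1.im < x₀.im - eps * ρ} →
  JD Q {p | ‖p.2‖ < ρ ∧ p.1.im < x₀.im - eps * ρ} →
  (∀ s w : ℂ, ‖w‖ < ρ → ‖s - x₀‖ < σ / 2 → s.im + |w.im| / 2 < x₀.im - eps * ρ →
    Q (s + w / 2) w - Q (s - w / 2) w = w * g s w) →
  ∃ F : ℂ → ℂ, DifferentiableOn ℂ F (Metric.ball x₀ (ρ / 50)) ∧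
    ∀ s ∈ Metric.ball x₀ (ρ / 50), s.im < x₀.im - eps * ρ → F s = g s 0

/-- Domain of the complex bounce coordinate. -/
def XD (b κ δ r₁ : ℝ) : Set (ℂ × ℂ) :=
  {p | ‖p.2‖ < r₁ ∧ -(κ / 2) < p.1.im ∧ p.1.im < b + κ / 2 ∧ ∀ k : ℤ, δ < ‖p.1 - xi b k‖}

/-- The complex bounce coordinate `X t w` away from the isotropic points. -/
structure XI (b κ : ℝ) (Z : ℂ → ℂ → ℂ) (δ r₁ C κ₁ : ℝ) (X : ℂ → ℂ → ℂ) : Prop where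
  hr₁ : 0 < r₁
  hκ₁ : 0 < κ₁
  hC : C * r₁ ^ 2 < κ₁
  dX : JD X (XD b κ δ r₁)
  zero : ∀ t : ℂ, (t, (0 : ℂ)) ∈ XD b κ δ r₁ → X t 0 = t
  eq : ∀ t w : ℂ, (t, w) ∈ XD b κ δ r₁ → Z (X t w) 0 = Z t w
  per : ∀ t w : ℂ, (t, w) ∈ XD b κ δ r₁ → X (t + 1) w = X t w + 1
  near : ∀ t w : ℂ, (t, w) ∈ XD b κ δ r₁ → ‖X t w - t‖ ≤ C * ‖w‖ ^ 2
  uniq : ∀ t w : ℂ, (t, w) ∈ XD b κ δ r₁ → ∀ x : ℂ, ‖x - t‖ < κ₁ → Z x 0 = Z t w → x = X t w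

/-- [INV] uniform local inverse. -/
def INV : Prop := ∀ b κ r Z s₁ tI U, LF b κ r Z s₁ tI U → ∀ δ : ℝ, 0 < δ → ∀ κ₂ : ℝ, 0 < κ₂ →
  ∃ (r₁ C κ₁ : ℝ) (X : ℂ → ℂ → ℂ), r₁ ≤ r ∧ r₁ ≤ κ₂ ∧ κ₁ ≤ κ₂ ∧ 0 ≤ C ∧ XI b κ Z δ r₁ C κ₁ X

/-- [PHI] the function `Γ` below an isotropic point as a function of the coordinate `Z · 0`. -/
def PHI : Prop := ∀ x₁ κ r s₁ Z tI U, Iso x₁ κ r s₁ Z tI U → ∀ (Γ : ℂ → ℂ) (κ' : ℝ), 0 < κ' →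
  DifferentiableOn ℂ Γ {x | ‖x - x₁‖ < κ' ∧ x.im < x₁.im} →
  ∃ (R κ'' : ℝ) (Φ : ℂ → ℂ), 0 < R ∧ 0 < κ'' ∧ DifferentiableOn ℂ Φ (SB s₁ (U 0 0) R) ∧
    ∀ x : ℂ, ‖x - x₁‖ < κ'' → x.im < x₁.im →
      Z x 0 ∈ SB s₁ (U 0 0) R ∧ Φ (Z x 0) = Γ x

/-- [NS0] below the isotropic point the leaf function avoids the slit. -/
def NS0 : Prop := ∀ x₁ κ r s₁ Z tI U, Iso x₁ κ r s₁ Z tI U → ∀ R e : ℝ, 0 < R → 0 < e →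
  ∃ δ₀ : ℝ, 0 < δ₀ ∧ ∀ t w : ℂ, ‖t - x₁‖ < δ₀ → ‖w‖ < δ₀ →
    t.im < x₁.im - |w.im| / 2 - e * ‖w‖ → Z t w ∈ SB s₁ (U 0 0) R

/-- [NS1] the same at distance `w₀` from the isotropic point. -/
def NS1 : Prop := ∀ x₁ κ r s₁ Z tI U, Iso x₁ κ r s₁ Z tI U → ∀ R : ℝ, 0 < R →
  ∃ w₁ : ℝ, 0 < w₁ ∧ ∀ w₀ : ℝ, 0 < w₀ → w₀ < w₁ → ∀ σ w : ℂ, ‖σ‖ ≤ w₀ / 16 →
    ‖w - w₀‖ ≤ w₀ / 32 → σ.im < -(|w.im| / 8) →
      Z (tI w + σ + w / 2) w ∈ SB s₁ (U 0 0) R ∧ Z (tI w + σ - w / 2) w ∈ SB s₁ (U 0 0) R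

/-- [GREG] construction of `G` on the last line (from INV, NS0): `G t w = Γ (X t w)` away from the
isotropic points, `G t w = Φ j (Z t w)` near them. -/
def GREG : Prop := ∀ b κ r Z s₁ tI U, LF b κ r Z s₁ tI U → ∀ X₀, RX r Z X₀ →
  ∀ (κ₀ : ℝ) (Γ : ℂ → ℂ), 0 < κ₀ → κ₀ ≤ κ →
  DifferentiableOn ℂ Γ {x | -κ₀ < x.im ∧ x.im < b} →
  (∀ x : ℂ, -κ₀ < x.im → x.im < b → Γ (x + 1) = Γ x) →
  ∀ (R κ'' : ℝ) (Φ : Fin 2 → ℂ → ℂ), 0 < R → 0 < κ'' →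
  (∀ j : Fin 2, DifferentiableOn ℂ (Φ j) (SB (s₁ j) (U j 0 0) R)) →
  (∀ j : Fin 2, ∀ x : ℂ, ‖x - xi b (j : ℕ)‖ < κ'' → x.im < b →
    Z x 0 ∈ SB (s₁ j) (U j 0 0) R ∧ Φ j (Z x 0) = Γ x) →
  ∃ δ₀ : ℝ, 0 < δ₀ ∧ ∀ δ₁ : ℝ, 0 < δ₁ → δ₁ < δ₀ → ∃ ρ₀ : ℝ, 0 < ρ₀ ∧ ∀ ρ : ℝ, 0 < ρ → ρ < ρ₀ →
    ∃ G : ℂ → ℂ → ℂ, JD G (RG (κ₀ / 2) (b - eps * ρ) (2 * ρ)) ∧
      (∃ M : ℝ, ∀ p ∈ RG (κ₀ / 2) (b - eps * ρ) (2 * ρ), ‖G p.1 p.2‖ ≤ M) ∧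
      (∀ t w : ℂ, (t, w) ∈ RG (κ₀ / 2) (b - eps * ρ) (2 * ρ) → G (t + 1) w = G t w) ∧
      (∀ t : ℂ, -(κ₀ / 2) < t.im → t.im < b - eps * ρ → G t 0 = Γ t) ∧
      (∀ t w : ℝ, |w| < 2 * ρ → G t w = Γ (X₀ t w)) ∧
      (∀ x₀ : ℂ, x₀.im = b → (∀ k : ℤ, δ₁ < ‖x₀ - xi b k‖) →
        JD G {p | ‖p.2‖ < 2 * ρ ∧ ‖p.1 - x₀‖ < δ₁ / 4 ∧ p.1.im < b - eps * ρ}) ∧
      (∀ j : Fin 2, ∀ t w : ℂ, (t, w) ∈ RG (κ₀ / 2) (b - eps * ρ) (2 * ρ) →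
        ‖t - xi b (j : ℕ)‖ < δ₁ / 4 → G t w = Φ j (Z t w))

/-- [GREG1] construction of `G` below the last line (from INV only). -/
def GREG1 : Prop := ∀ b κ r Z s₁ tI U, LF b κ r Z s₁ tI U → ∀ X₀, RX r Z X₀ →
  ∀ (κ₀ β : ℝ) (Γ : ℂ → ℂ), 0 < κ₀ → κ₀ ≤ κ → 0 < β → β < b →
  DifferentiableOn ℂ Γ {x | -κ₀ < x.im ∧ x.im < β} →
  (∀ x : ℂ, -κ₀ < x.im → x.im < β → Γ (x + 1) = Γ x) →
  ∃ ρ₀ : ℝ, 0 < ρ₀ ∧ ∀ ρ : ℝ, 0 < ρ → ρ < ρ₀ →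
    ∃ G : ℂ → ℂ → ℂ, JD G {p | ‖p.2‖ < 2 * ρ ∧ -(κ₀ / 2) < p.1.im ∧ p.1.im < β - eps * ρ} ∧
      (∃ M : ℝ, ∀ t w : ℂ, ‖w‖ < 2 * ρ → -(κ₀ / 2) < t.im → t.im < β - eps * ρ → ‖G t w‖ ≤ M) ∧
      (∀ t w : ℂ, ‖w‖ < 2 * ρ → -(κ₀ / 2) < t.im → t.im < β - eps * ρ → G (t + 1) w = G t w) ∧
      (∀ t : ℂ, -(κ₀ / 2) < t.im → t.im < β - eps * ρ → G t 0 = Γ t) ∧
      (∀ t w : ℝ, |w| < 2 * ρ → G t w = Γ (X₀ t w))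

/-- [S12] first line argument (from VL, K0, GREG1, GREG, PHI): `γ` extends to the strip below the
isotropic line and across every regular point of it. -/
def S12 : Prop := ∀ b κ r Z s₁ tI U, LF b κ r Z s₁ tI U → ∀ X₀, RX r Z X₀ →
  ∀ (κ₀ : ℝ) (γ : ℂ → ℂ), 0 < κ₀ → κ₀ ≤ κ → DifferentiableOn ℂ γ {x | |x.im| < κ₀} →
  (∀ x : ℂ, |x.im| < κ₀ → γ (x + 1) = γ x) → Van r X₀ γ →
  ∃ Γ : ℂ → ℂ, DifferentiableOn ℂ Γ {x | -κ₀ < x.im ∧ x.im < b} ∧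
    (∀ x : ℂ, |x.im| < κ₀ → x.im < b → Γ x = γ x) ∧
    (∀ x : ℂ, -κ₀ < x.im → x.im < b → Γ (x + 1) = Γ x) ∧
    ∀ x₀ : ℂ, x₀.im = b → (∀ k : ℤ, x₀ ≠ xi b k) → ∃ (d : ℝ) (F : ℂ → ℂ), 0 < d ∧
      DifferentiableOn ℂ F (Metric.ball x₀ d) ∧ ∀ x ∈ Metric.ball x₀ d, x.im < b → F x = Γ x

/-- [K1] kink lemma at an isotropic point. -/
def K1 : Prop := ∀ x₁ κ r s₁ Z tI U, Iso x₁ κ r s₁ Z tI U → ∀ (R : ℝ) (Φ : ℂ → ℂ), 0 < R →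
  DifferentiableOn ℂ Φ (SB s₁ (U 0 0) R) → ∀ σ₁ : ℝ, 0 < σ₁ →
  ∃ ρ₀ : ℝ, 0 < ρ₀ ∧ ∀ ρ : ℝ, 0 < ρ → ρ < ρ₀ → ∀ H Q : ℂ → ℂ → ℂ,
    JD H {p | ‖p.2‖ < ρ ∧ ‖p.1 - x₁‖ < σ₁} → JD Q {p | ‖p.2‖ < ρ ∧ p.1.im < x₁.im - eps * ρ} →
    (∀ s w : ℂ, ‖w‖ < ρ → ‖s - x₁‖ < σ₁ → s.im + |w.im| / 2 < x₁.im - eps * ρ →
      Q (s + w / 2) w - Q (s - w / 2) w = w * (Φ (Z s w) - H s w)) →
    ∃ (w₀ ρ₂ : ℝ) (T : ℂ → ℂ → ℂ), 0 < w₀ ∧ w₀ < ρ ∧ 0 < ρ₂ ∧ 32 * ρ₂ < w₀ ∧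
      JD T {p | ‖p.1‖ < ρ₂ ∧ ‖p.2 - w₀‖ < ρ₂} ∧
      ∀ σ w : ℂ, ‖σ‖ < ρ₂ → ‖w - w₀‖ < ρ₂ → σ.im < -|w.im| →
        Z (tI w + σ + w / 2) w ∈ SB s₁ (U 0 0) R ∧ Z (tI w + σ - w / 2) w ∈ SB s₁ (U 0 0) R ∧
        T σ w = Φ (Z (tI w + σ + w / 2) w) + Φ (Z (tI w + σ - w / 2) w)

/-- [ISO] at an isotropic point `Φ` is single valued with at most a simple pole. -/
def ISO : Prop := ∀ x₁ κ r s₁ Z tI U, Iso x₁ κ r s₁ Z tI U → ∀ (R : ℝ) (Φ : ℂ → ℂ), 0 < R →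
  DifferentiableOn ℂ Φ (SB s₁ (U 0 0) R) →
  (∀ e : ℝ, 0 < e → ∃ (w₀ ρ₂ : ℝ) (T : ℂ → ℂ → ℂ), 0 < w₀ ∧ w₀ < e ∧ 0 < ρ₂ ∧ 32 * ρ₂ < w₀ ∧
      JD T {p | ‖p.1‖ < ρ₂ ∧ ‖p.2 - w₀‖ < ρ₂} ∧
      ∀ σ w : ℂ, ‖σ‖ < ρ₂ → ‖w - w₀‖ < ρ₂ → σ.im < -|w.im| →
        Z (tI w + σ + w / 2) w ∈ SB s₁ (U 0 0) R ∧ Z (tI w + σ - w / 2) w ∈ SB s₁ (U 0 0) R ∧
        T σ w = Φ (Z (tI w + σ + w / 2) w) + Φ (Z (tI w + σ - w / 2) w)) →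
  ∃ (A : ℂ) (R' : ℝ) (F : ℂ → ℂ), 0 < R' ∧ R' ≤ R ∧ DifferentiableOn ℂ F (Metric.ball s₁ R') ∧
    ∀ ζ ∈ SB s₁ (U 0 0) R', Φ ζ = A / (ζ - s₁) + F ζ

/-- [ABS] the complex analysis half (from S12, PHI, GREG, VL, K1, ISO). -/
def ABS : Prop := ∀ b κ r Z s₁ tI U, LF b κ r Z s₁ tI U → ∀ X₀, RX r Z X₀ →
  ∀ (κ₀ : ℝ) (γ : ℂ → ℂ), 0 < κ₀ → κ₀ ≤ κ → DifferentiableOn ℂ γ {x | |x.im| < κ₀} →
  (∀ x : ℂ, |x.im| < κ₀ → γ (x + 1) = γ x) → Van r X₀ γ →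
  ∃ (δ : ℝ) (Γ : ℂ → ℂ) (A : Fin 2 → ℂ), AOut b δ κ₀ γ Γ A

/-- [CLS] classification: no pole implies constant (maximum principle on `|Im x| ≤ b`). -/
def CLS : Prop := ∀ (b δ κ₀ : ℝ) (γ Γ : ℂ → ℂ) (A : Fin 2 → ℂ), 0 < b → 0 < κ₀ →
  AOut b δ κ₀ γ Γ A → (∀ j, A j = 0) → (∀ x : ℝ, (γ x).im = 0) → ∃ c : ℂ, ∀ x : ℝ, γ x = c

/-! ## 3. The ellipse -/

/-- Support function of the ellipse with half axes `a`, `c` in normal position. -/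
noncomputable def hE (a c : ℝ) (ψ : ℝ) : ℝ :=
  √(a ^ 2 * Real.cos ψ ^ 2 + c ^ 2 * Real.sin ψ ^ 2)

/-- The leaf of the ellipse with Joachimsthal constant `J`: `sin δ = J h`. -/
noncomputable def fE (a c J : ℝ) (ψ : ℝ) : ℝ := Real.arcsin (J * hE a c ψ)

/-- `x` is the sequence of bounces of an orbit on the graph of `f`. -/
def Orb (h f : ℝ → ℝ) (x : ℕ → ℝ) : Prop :=
  ∀ j, Step h (x j) (f (x j)) (x (j + 1)) (f (x (j + 1)))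

/-- All orbits on the graph of `f` close after `n` bounces and `p` turns. -/
def Clo (h f : ℝ → ℝ) (n p : ℕ) : Prop := ∀ x, Orb h f x → x n = x 0 + 2 * Real.pi * p

/-- The real leaves of the ellipse in the phase coordinate: `Ψ₀` = normal angle as a function of the
Lazutkin coordinate. -/
structure EL (a c r : ℝ) (X₀ : ℝ → ℝ → ℝ) (Ψ₀ : ℝ → ℝ) : Prop where
  an : ∀ x, AnalyticAt ℝ Ψ₀ x
  dpos : ∀ x, 0 < deriv Ψ₀ x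
  per : ∀ x, Ψ₀ (x + 1) = Ψ₀ x + 2 * Real.pi
  leaf : ∀ w : ℝ, 0 < w → w < r → ∃ J : ℝ, 0 < J ∧ J * a < 1 ∧ ∀ t : ℝ,
    Step (hE a c) (Ψ₀ (X₀ t w)) (fE a c J (Ψ₀ (X₀ t w)))
      (Ψ₀ (X₀ (t + w) w)) (fE a c J (Ψ₀ (X₀ (t + w) w)))

/-- [LFE] the complex and real data of every non-circular ellipse. -/
def LFE : Prop := ∀ a c : ℝ, 0 < c → c < a → ∃ b κ r Z s₁ tI U X₀ Ψ₀,
  LF b κ r Z s₁ tI U ∧ RX r Z X₀ ∧ EL a c r X₀ Ψ₀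

/-- `g` satisfies the linearised conditions at the ellipse for all rotation numbers below `ε`. -/
def SolE (a c ε : ℝ) (g : ℝ → ℝ) : Prop :=
  (∀ x, AnalyticAt ℝ g x) ∧ (∀ x, g (x + 2 * Real.pi) = g x) ∧
  ∀ n p : ℕ, 0 < n → 0 < p → (p : ℝ) / n < ε → ∀ J : ℝ, 0 < J → J * a < 1 →
    Clo (hE a c) (fE a c J) n p → ∀ x x' : ℕ → ℝ, Orb (hE a c) (fE a c J) x →
      Orb (hE a c) (fE a c J) x' →
      ∑ j ∈ Finset.range n, g (x j) * Real.sin (fE a c J (x j)) =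
        ∑ j ∈ Finset.range n, g (x' j) * Real.sin (fE a c J (x' j))

/-- [LIN] linear rigidity: the space of solutions has dimension at most five
(from ABS, CLS, LFE, JOA). -/
def LIN : Prop := ∀ a c : ℝ, 0 < c → c < a → ∀ ε : ℝ, 0 < ε → ∀ g : Fin 6 → ℝ → ℝ,
  (∀ i, SolE a c ε (g i)) → ∃ v : Fin 6 → ℝ, v ≠ 0 ∧ ∀ x, ∑ i, v i * g i x = 0

/-- [JOA] Joachimsthal: `sin δ = J h` is an invariant graph. -/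
def JOA : Prop := ∀ a c : ℝ, 0 < c → c ≤ a → ∀ J : ℝ, 0 < J → J * a < 1 →
  InvGraph (hE a c) (fE a c J)

/-- The five infinitesimal ellipses. -/
noncomputable def tg (a c : ℝ) : Fin 5 → ℝ → ℝ :=
  ![Real.cos, Real.sin, fun x => 1 / hE a c x, fun x => Real.cos (2 * x) / hE a c x,
    fun x => Real.sin (2 * x) / hE a c x]

/-- [MEM] they are solutions. (`cos`, `sin`: telescoping; `1/h`: trivial; `cos 2ψ / h`: the length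
functional is constant on a leaf; `sin 2ψ / h`: rotation of a critical configuration.) -/
def MEM : Prop := ∀ a c : ℝ, 0 < c → c < a → ∀ ε : ℝ, 0 < ε → ∀ i, SolE a c ε (tg a c i)

/-- [LIN5] hence every solution is a combination of the five (from LIN, MEM). -/
def LIN5 : Prop := ∀ a c : ℝ, 0 < c → c < a → ∀ ε : ℝ, 0 < ε → ∀ g : ℝ → ℝ, SolE a c ε g →
  ∃ v : Fin 5 → ℝ, ∀ x, g x = ∑ i, v i * tg a c i x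

/-! ## 4. From tables to the linearised problem -/

/-- [FV] first variation: the length functional `∑ 2 h((Z_j + Z_{j+1})/2) sin((Z_{j+1} - Z_j)/2)` of
`Bdl.B2` is linear in `h`. -/
def FV : Prop := ∀ η : ℝ, 0 < η → ∀ (e : ℝ → ℝ) (hs es : ℕ → ℝ → ℝ) (ε : ℕ → ℝ) (g : ℝ → ℝ),
  SmoothTable e → (∀ k, SmoothTable (hs k) ∧ Collar (hs k) η) →
  (∀ k, SmoothTable (es k) ∧ Collar (es k) η) → (∀ k, 0 < ε k) → Continuous g →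
  TendstoUniformly hs e atTop → TendstoUniformly es e atTop →
  TendstoUniformly (fun k x => (hs k x - es k x) / ε k) g atTop →
  ∀ n p : ℕ, 0 < n → 0 < p → Real.pi * p / n < η → ∀ f, InvGraph e f → Clo e f n p →
  ∀ x x' : ℕ → ℝ, Orb e f x → Orb e f x' →
    ∑ j ∈ Finset.range n, g (x j) * Real.sin (f (x j)) =
      ∑ j ∈ Finset.range n, g (x' j) * Real.sin (f (x' j))

/-! ## 5. The family of ellipses and the final theorem -/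

/-- Support function of a general ellipse: centre `(P 0, P 1)`, `A = P 2`, `B = P 3`, `C = P 4`. -/
noncomputable def ellS (P : Fin 5 → ℝ) (ψ : ℝ) : ℝ :=
  P 0 * Real.cos ψ + P 1 * Real.sin ψ +
    √(P 2 + P 3 * Real.cos (2 * ψ) + P 4 * Real.sin (2 * ψ))

/-- The parameters of ellipses (discs included). -/
def EPar (P : Fin 5 → ℝ) : Prop := 0 < P 2 ∧ P 3 ^ 2 + P 4 ^ 2 < P 2 ^ 2

/-- [ELLC] ellipses near a given ellipse are uniformly good tables. -/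
def ELLC : Prop := ∀ P₀, EPar P₀ → ∃ δ η β M : ℝ, 0 < δ ∧ 0 < η ∧ 0 < β ∧ 1 ≤ M ∧
  ∀ P, (∀ i, |P i - P₀ i| ≤ δ) → EPar P ∧ SmoothTable (ellS P) ∧ Collar (ellS P) η ∧
    FD.StripTab β M (ellS P)

/-- [TOP] local rigidity of every non-circular ellipse in the smooth class. (Owner 209; interface
of the reduction in `Vale/Agent/P097/TOP/Defs.lean`.) -/
def TOP : Prop := ∀ P₀, EPar P₀ → (P₀ 3 ≠ 0 ∨ P₀ 4 ≠ 0) → ∀ η : ℝ, 0 < η →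
  ∃ (k : ℕ) (κ : ℝ), 0 < κ ∧ ∀ h : ℝ → ℝ, SmoothTable h → Collar h η →
    (∀ i ≤ k, ∀ x, |iteratedDeriv i h x - iteratedDeriv i (ellS P₀) x| < κ) →
      ∃ P, EPar P ∧ h = ellS P

end Vale.Agent.P097.LR
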