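import Vale.Agent.P097.LR.Glue2

/-! # P097 / LR : assembly of the complex analysis half -/

set_option linter.all false

open Filter Topology

namespace Vale.Agent.P097.LR

theorem SB_mono {s u : ℂ} {R R' : ℝ} (h : R ≤ R') : SB s u R ⊆ SB s u R' :=
  fun ζ hζ => ⟨lt_of_lt_of_le hζ.1 h, hζ.2⟩

theorem Iso.contU {x₁ : ℂ} {κ r : ℝ} {s₁ : ℂ} {Z : ℂ → ℂ → ℂ} {tI : ℂ → ℂ} {U : ℂ → ℂ → ℂ}
    (I : Iso x₁ κ r s₁ Z tI U) : DifferentiableOn ℂ (fun τ => U τ 0) (Metric.ball 0 κ) := by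
  have h1 : DifferentiableOn ℂ (fun τ : ℂ => ((τ, (0 : ℂ)) : ℂ × ℂ)) (Metric.ball 0 κ) :=
    (differentiableOn_id.prodMk (differentiableOn_const _))
  have := I.dU.comp h1 (by
    intro τ hτ
    refine ⟨?_, ?_⟩
    · simpa using hτ
    · simpa using I.hr)
  exact this

theorem Iso.loc0 {x₁ : ℂ} {κ r : ℝ} {s₁ : ℂ} {Z : ℂ → ℂ → ℂ} {tI : ℂ → ℂ} {U : ℂ → ℂ → ℂ}
    (I : Iso x₁ κ r s₁ Z tI U) {τ : ℂ} (hτ : ‖τ‖ < κ) :
    Z (x₁ + τ) 0 = s₁ + τ ^ 2 * U τ 0 := by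
  have := I.loc τ 0 hτ (by simpa using I.hr)
  rw [I.I0] at this
  rw [this]; ring

/-- small values near the isotropic point -/
theorem Iso.small {x₁ : ℂ} {κ r : ℝ} {s₁ : ℂ} {Z : ℂ → ℂ → ℂ} {tI : ℂ → ℂ} {U : ℂ → ℂ → ℂ}
    (I : Iso x₁ κ r s₁ Z tI U) {R : ℝ} (hR : 0 < R) :
    ∃ d : ℝ, 0 < d ∧ ∀ x : ℂ, ‖x - x₁‖ < d → ‖Z x 0 - s₁‖ < R := by
  have hc : ContinuousAt (fun τ : ℂ => τ ^ 2 * U τ 0) 0 := by
    have h1 : ContinuousAt (fun τ : ℂ => U τ 0) 0 :=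
      (I.contU.differentiableAt (Metric.ball_mem_nhds _ I.hκ)).continuousAt
    exact (continuousAt_id.pow 2).mul h1
  have h0 : Tendsto (fun τ : ℂ => τ ^ 2 * U τ 0) (𝓝 0) (𝓝 0) := by
    have := hc.tendsto
    simpa using this
  obtain ⟨d, hd, h⟩ := Metric.eventually_nhds_iff.mp
    ((Metric.tendsto_nhds.mp h0) R hR)
  refine ⟨min d κ, lt_min hd I.hκ, fun x hx => ?_⟩
  have hx1 : ‖x - x₁‖ < d := lt_of_lt_of_le hx (min_le_left _ _)
  have hx2 : ‖x - x₁‖ < κ := lt_of_lt_of_le hx (min_le_right _ _)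
  have e := I.loc0 hx2
  have e2 : x₁ + (x - x₁) = x := by ring
  rw [e2] at e
  rw [e]
  have := h (y := x - x₁) (by simpa [dist_eq_norm] using hx1)
  simpa [dist_eq_norm] using this

/-- From the form of `Φ` to the form of `Γ` at the isotropic point. -/
theorem locJ_of {b κ r : ℝ} {k : ℤ} {s₁ : ℂ} {Z : ℂ → ℂ → ℂ} {tI : ℂ → ℂ} {U : ℂ → ℂ → ℂ}
    (I : Iso (xi b k) κ r s₁ Z tI U) {Γ Φ F : ℂ → ℂ} {A : ℂ} {R κ'' : ℝ} (hR : 0 < R)
    (hκ'' : 0 < κ'') (hF : DifferentiableOn ℂ F (Metric.ball s₁ R))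
    (hΦ : ∀ ζ ∈ SB s₁ (U 0 0) R, Φ ζ = A / (ζ - s₁) + F ζ)
    (hΓ : ∀ x : ℂ, ‖x - xi b k‖ < κ'' → x.im < b → Z x 0 ∈ SB s₁ (U 0 0) R ∧ Φ (Z x 0) = Γ x) :
    ∃ (A' : ℂ) (d : ℝ) (f : ℂ → ℂ), LocJ b Γ k A' d f := by
  set u : ℂ → ℂ := fun τ => U τ 0 with hu
  have hud : DifferentiableOn ℂ u (Metric.ball 0 κ) := I.contU
  have hu0 : u 0 ≠ 0 := I.U0
  have huev : ∀ τ : ℂ, ‖τ‖ < κ → u (-τ) = u τ := fun τ hτ => I.Uev τ 0 hτ (by simpa using I.hr)
  -- a ball where `u ≠ 0`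
  have hcu : ContinuousAt u 0 := (hud.differentiableAt (Metric.ball_mem_nhds _ I.hκ)).continuousAt
  obtain ⟨d₁, hd₁, hd₁'⟩ := Metric.eventually_nhds_iff.mp (hcu.eventually_ne hu0)
  obtain ⟨d₂, hd₂, hd₂'⟩ := I.small hR
  set d : ℝ := min (min d₁ d₂) (min κ κ'') with hd
  have hdpos : 0 < d := lt_min (lt_min hd₁ hd₂) (lt_min I.hκ hκ'')
  have hdd₁ : d ≤ d₁ := le_trans (min_le_left _ _) (min_le_left _ _)
  have hdd₂ : d ≤ d₂ := le_trans (min_le_left _ _) (min_le_right _ _)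
  have hdκ : d ≤ κ := le_trans (min_le_right _ _) (min_le_left _ _)
  have hdκ'' : d ≤ κ'' := le_trans (min_le_right _ _) (min_le_right _ _)
  have hne : ∀ τ : ℂ, ‖τ‖ < d → u τ ≠ 0 := fun τ hτ =>
    hd₁' (by simpa [dist_eq_norm] using lt_of_lt_of_le hτ hdd₁)
  -- v = 1/u - 1/u(0)
  set v : ℂ → ℂ := fun τ => 1 / u τ - 1 / u 0 with hv
  have hvd : DifferentiableOn ℂ v (Metric.ball 0 d) := by
    have h1 : DifferentiableOn ℂ u (Metric.ball 0 d) := hud.mono (Metric.ball_subset_ball hdκ)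
    have h2 : DifferentiableOn ℂ (fun τ => 1 / u τ) (Metric.ball 0 d) :=
      (differentiableOn_const _).div h1 (fun τ hτ => hne τ (by simpa using hτ))
    exact h2.sub (differentiableOn_const _)
  have hv0 : v 0 = 0 := by simp [hv]
  have hvev : ∀ τ : ℂ, ‖τ‖ < d → v (-τ) = v τ := by
    intro τ hτ
    simp only [hv]
    rw [huev τ (lt_of_lt_of_le hτ hdκ)]
  have hball0 : Metric.ball (0 : ℂ) d ∈ 𝓝 (0 : ℂ) := Metric.ball_mem_nhds _ hdpos
  have hdv0 : deriv v 0 = 0 := by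
    have h1 : (fun τ => v (-τ)) =ᶠ[𝓝 0] v := by
      filter_upwards [hball0] with τ hτ
      exact hvev τ (by simpa using hτ)
    have h2 : deriv (fun τ => v (-τ)) 0 = deriv v 0 := h1.deriv_eq
    have h3 : deriv (fun τ => v (-τ)) 0 = - deriv v 0 := by
      rw [deriv_comp_neg]; simp
    rw [h3] at h2
    have : deriv v 0 + deriv v 0 = 0 := by
      nth_rewrite 1 [← h2]; ring
    have h4 : (2 : ℂ) * deriv v 0 = 0 := by linear_combination this
    simpa using h4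
  set q : ℂ → ℂ := dslope v 0 with hq
  have hqd : DifferentiableOn ℂ q (Metric.ball 0 d) :=
    (Complex.differentiableOn_dslope hball0).mpr hvd
  have hq0 : q 0 = 0 := by rw [hq, dslope_same, hdv0]
  set p : ℂ → ℂ := dslope q 0 with hp
  have hpd : DifferentiableOn ℂ p (Metric.ball 0 d) :=
    (Complex.differentiableOn_dslope hball0).mpr hqd
  have hpv : ∀ τ : ℂ, v τ = τ ^ 2 * p τ := by
    intro τ
    by_cases hτ : τ = 0
    · subst hτ; simp [hv0]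
    · have h1 : q τ = v τ / τ := by
        rw [hq, dslope_of_ne _ hτ, slope_def_field, hv0]; simp
      have h2 : p τ = q τ / τ := by
        rw [hp, dslope_of_ne _ hτ, slope_def_field, hq0]; simp
      rw [h2, h1]; field_simp
  have hpev : ∀ τ : ℂ, ‖τ‖ < d → p (-τ) = p τ := by
    intro τ hτ
    by_cases h0 : τ = 0
    · subst h0; simp
    · have h1 := hpv τ
      have h2 := hpv (-τ)
      rw [hvev τ hτ, h1] at h2
      have h3 : τ ^ 2 ≠ 0 := pow_ne_zero 2 h0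
      have h4 : τ ^ 2 * (p (-τ)) = τ ^ 2 * p τ := by
        rw [h2]; ring
      exact mul_left_cancel₀ h3 h4
  -- the function f
  set f : ℂ → ℂ := fun x => A * p (x - xi b k) + F (s₁ + (x - xi b k) ^ 2 * u (x - xi b k)) with hf
  have hmaps : ∀ x ∈ Metric.ball (xi b k) d,
      s₁ + (x - xi b k) ^ 2 * u (x - xi b k) ∈ Metric.ball s₁ R := by
    intro x hx
    have hx' : ‖x - xi b k‖ < d := mem_ball_iff_norm.mp hx
    have h1 := hd₂' x (lt_of_lt_of_le hx' hdd₂)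
    have h2 := I.loc0 (τ := x - xi b k) (lt_of_lt_of_le hx' hdκ)
    have e2 : xi b k + (x - xi b k) = x := by ring
    rw [e2] at h2
    rw [mem_ball_iff_norm]
    rw [h2] at h1
    simpa using h1
  refine ⟨A / u 0, d, f, hdpos, ?_, ?_, ?_⟩
  · -- differentiable
    have hs : DifferentiableOn ℂ (fun x : ℂ => x - xi b k) (Metric.ball (xi b k) d) :=
      differentiableOn_id.sub (differentiableOn_const _)
    have hsm : Set.MapsTo (fun x : ℂ => x - xi b k) (Metric.ball (xi b k) d) (Metric.ball 0 d) := by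
      intro x hx
      simpa using mem_ball_iff_norm.mp hx
    have h1 : DifferentiableOn ℂ (fun x => p (x - xi b k)) (Metric.ball (xi b k) d) :=
      hpd.comp hs hsm
    have h2 : DifferentiableOn ℂ (fun x => u (x - xi b k)) (Metric.ball (xi b k) d) :=
      (hud.mono (Metric.ball_subset_ball hdκ)).comp hs hsm
    have h3 : DifferentiableOn ℂ (fun x => s₁ + (x - xi b k) ^ 2 * u (x - xi b k))
        (Metric.ball (xi b k) d) := (differentiableOn_const _).add ((hs.pow 2).mul h2)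
    exact (h1.const_mul A).add (hF.comp h3 hmaps)
  · intro τ hτ
    simp only [hf]
    have e1 : xi b k - τ - xi b k = -τ := by ring
    have e2 : xi b k + τ - xi b k = τ := by ring
    rw [e1, e2, hpev τ hτ, huev τ (lt_of_lt_of_le hτ hdκ), neg_sq]
  · intro x hx hxb
    have hx' : ‖x - xi b k‖ < d := mem_ball_iff_norm.mp hx
    obtain ⟨hz, hzΓ⟩ := hΓ x (lt_of_lt_of_le hx' hdκ'') hxb
    rw [← hzΓ, hΦ _ hz]
    have h2 := I.loc0 (τ := x - xi b k) (lt_of_lt_of_le hx' hdκ)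
    have e2 : xi b k + (x - xi b k) = x := by ring
    rw [e2] at h2
    set τ := x - xi b k with hτ
    have hτ0 : τ ≠ 0 := by
      intro h
      have : x = xi b k := by rw [hτ] at h; exact sub_eq_zero.mp h
      rw [this, xi_im] at hxb
      exact lt_irrefl _ hxb
    have huτ : u τ ≠ 0 := hne τ hx'
    have hv' := hpv τ
    rw [h2]
    simp only [hf]
    have key : A / (s₁ + τ ^ 2 * U τ 0 - s₁) = A / u 0 / τ ^ 2 + A * p τ := by
      have e3 : s₁ + τ ^ 2 * U τ 0 - s₁ = τ ^ 2 * u τ := by simp only [hu]; ring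
      rw [e3]
      have e4 : p τ = (1 / u τ - 1 / u 0) / τ ^ 2 := by
        rw [eq_div_iff (pow_ne_zero 2 hτ0)]
        rw [mul_comm, ← hv']
      rw [e4]
      field_simp
      ring
    rw [key]
    simp only [hu]
    ring

theorem abs_of (hS : S12) (hP : PHI) (hG : GREG) (hV : VL) (hK : K1) (hI : ISO) : ABS := by
  intro b κ r Z s₁ tI U L X₀ RX₀ κ₀ γ hκ₀ hκκ dγ pγ van
  obtain ⟨Γ, dΓ, eΓ, pΓ, regΓ⟩ := hS b κ r Z s₁ tI U L X₀ RX₀ κ₀ γ hκ₀ hκκ dγ pγ van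
  have hb : 0 < b := lt_trans L.hκ L.hκb
  have hκ₀b : κ₀ < b := lt_of_le_of_lt hκκ L.hκb
  have hr := L.hr
  -- PHI at both points
  have hphi : ∀ j : Fin 2, ∃ (R κ'' : ℝ) (Φ : ℂ → ℂ), 0 < R ∧ 0 < κ'' ∧
      DifferentiableOn ℂ Φ (SB (s₁ j) (U j 0 0) R) ∧
      ∀ x : ℂ, ‖x - xi b (j : ℕ)‖ < κ'' → x.im < b →
        Z x 0 ∈ SB (s₁ j) (U j 0 0) R ∧ Φ (Z x 0) = Γ x := by
    intro j
    have := hP (xi b (j : ℕ)) κ r (s₁ j) Z (tI j) (U j) (L.iso j) Γ b hb (by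
      apply dΓ.mono
      rintro x ⟨hx1, hx2⟩
      rw [xi_im] at hx2
      refine ⟨?_, hx2⟩
      have h1 : |(x - xi b (j : ℕ)).im| < b := lt_of_le_of_lt (Complex.abs_im_le_norm _) hx1
      rw [Complex.sub_im, xi_im] at h1
      have h2 := (abs_lt.mp h1).1
      linarith)
    obtain ⟨R, κ'', Φ, h1, h2, h3, h4⟩ := this
    refine ⟨R, κ'', Φ, h1, h2, h3, ?_⟩
    intro x hx hxb
    exact h4 x hx (by rw [xi_im]; exact hxb)
  choose R κ'' Φ hR hκ'' dΦ eΦ using hphi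
  set R' : ℝ := min (R 0) (R 1) with hR'
  have hR'pos : 0 < R' := lt_min (hR 0) (hR 1)
  have hR'le : ∀ j : Fin 2, R' ≤ R j := by
    intro j; fin_cases j
    · exact min_le_left _ _
    · exact min_le_right _ _
  have hsm : ∀ j : Fin 2, ∃ d : ℝ, 0 < d ∧ ∀ x : ℂ, ‖x - xi b (j : ℕ)‖ < d →
      ‖Z x 0 - s₁ j‖ < R' := fun j => (L.iso j).small hR'pos
  choose dd hdd hdd' using hsm
  set κ' : ℝ := min (min (κ'' 0) (κ'' 1)) (min (dd 0) (dd 1)) with hκ'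
  have hκ'pos : 0 < κ' := lt_min (lt_min (hκ'' 0) (hκ'' 1)) (lt_min (hdd 0) (hdd 1))
  have hκ'le : ∀ j : Fin 2, κ' ≤ κ'' j := by
    intro j; fin_cases j
    · exact le_trans (min_le_left _ _) (min_le_left _ _)
    · exact le_trans (min_le_left _ _) (min_le_right _ _)
  have hκ'le2 : ∀ j : Fin 2, κ' ≤ dd j := by
    intro j; fin_cases j
    · exact le_trans (min_le_right _ _) (min_le_left _ _)
    · exact le_trans (min_le_right _ _) (min_le_right _ _)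
  have dΦ' : ∀ j : Fin 2, DifferentiableOn ℂ (Φ j) (SB (s₁ j) (U j 0 0) R') := fun j =>
    (dΦ j).mono (SB_mono (hR'le j))
  have eΦ' : ∀ j : Fin 2, ∀ x : ℂ, ‖x - xi b (j : ℕ)‖ < κ' → x.im < b →
      Z x 0 ∈ SB (s₁ j) (U j 0 0) R' ∧ Φ j (Z x 0) = Γ x := by
    intro j x hx hxb
    obtain ⟨h1, h2⟩ := eΦ j x (lt_of_lt_of_le hx (hκ'le j)) hxb
    exact ⟨⟨hdd' j x (lt_of_lt_of_le hx (hκ'le2 j)), h1.2⟩, h2⟩
  -- GREG
  obtain ⟨δ₀, hδ₀, hgreg⟩ := hG b κ r Z s₁ tI U L X₀ RX₀ κ₀ Γ hκ₀ hκκ dΓ pΓ R' κ' Φ hR'pos hκ'pos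
    dΦ' eΦ'
  set δ₁ : ℝ := δ₀ / 2 with hδ₁
  have hδ₁pos : 0 < δ₁ := by rw [hδ₁]; linarith
  obtain ⟨ρ₀, hρ₀, hgreg⟩ := hgreg δ₁ hδ₁pos (by rw [hδ₁]; linarith)
  set σ₁ : ℝ := min (δ₁ / 4) b with hσ₁
  have hσ₁pos : 0 < σ₁ := lt_min (by linarith) hb
  -- isotropic analysis
  have hiso : ∀ j : Fin 2, ∃ (A' : ℂ) (d : ℝ) (f : ℂ → ℂ), LocJ b Γ (j : ℕ) A' d f := by
    intro j
    have Ij := L.iso j
    obtain ⟨ρK, hρK, hk1⟩ := hK (xi b (j : ℕ)) κ r (s₁ j) Z (tI j) (U j) Ij R' (Φ j) hR'pos (dΦ' j)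
      σ₁ hσ₁pos
    have hT : ∀ e : ℝ, 0 < e → ∃ (w₀ ρ₂ : ℝ) (T : ℂ → ℂ → ℂ), 0 < w₀ ∧ w₀ < e ∧ 0 < ρ₂ ∧
        32 * ρ₂ < w₀ ∧ JD T {p | ‖p.1‖ < ρ₂ ∧ ‖p.2 - w₀‖ < ρ₂} ∧
        ∀ σ w : ℂ, ‖σ‖ < ρ₂ → ‖w - w₀‖ < ρ₂ → σ.im < -|w.im| →
          Z (tI j w + σ + w / 2) w ∈ SB (s₁ j) (U j 0 0) R' ∧
          Z (tI j w + σ - w / 2) w ∈ SB (s₁ j) (U j 0 0) R' ∧
          T σ w = Φ j (Z (tI j w + σ + w / 2) w) + Φ j (Z (tI j w + σ - w / 2) w) := by
      intro e he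
      set ρ : ℝ := min (min (ρ₀ / 2) (ρK / 2)) (min (e / 2) (min (b / 4) (r / 4))) with hρ
      have hρpos : 0 < ρ := lt_min (lt_min (by linarith) (by linarith))
        (lt_min (by linarith) (lt_min (by linarith) (by linarith)))
      have h1 : ρ ≤ ρ₀ / 2 := le_trans (min_le_left _ _) (min_le_left _ _)
      have h2 : ρ ≤ ρK / 2 := le_trans (min_le_left _ _) (min_le_right _ _)
      have h3 : ρ ≤ e / 2 := le_trans (min_le_right _ _) (min_le_left _ _)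
      have h4 : ρ ≤ b / 4 := le_trans (min_le_right _ _) (le_trans (min_le_right _ _) (min_le_left _ _))
      have h5 : ρ ≤ r / 4 := le_trans (min_le_right _ _) (le_trans (min_le_right _ _) (min_le_right _ _))
      have heps : 0 < eps := by unfold eps; norm_num
      have heps1 : eps ≤ 1 := by unfold eps; norm_num
      have hepsρ : eps * ρ ≤ ρ := by nlinarith
      obtain ⟨G, dG, bG, pG, zG, rG, fG, nG⟩ := hgreg ρ hρpos (by linarith)
      obtain ⟨H, Q, vo⟩ := hV (κ₀ / 2) (b - eps * ρ) ρ G (by linarith) hρpos (by linarith) dG bG pG (by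
        intro n hn p hp hpn
        have := van n hn p hp (by linarith)
        rw [← this]
        apply intervalIntegral.integral_congr
        intro t _
        have hh := rG t ((p : ℝ) / n) hpn
        have hh2 : Γ (X₀ t ((p : ℝ) / n)) = γ (X₀ t ((p : ℝ) / n)) := by
          apply eΓ
          · rw [Complex.ofReal_im, abs_zero]; exact hκ₀
          · rw [Complex.ofReal_im]; exact hb
        simp only
        rw [hh, hh2])
      obtain ⟨w₀, ρ₂, T, g1, g2, g3, g4, g5, g6⟩ := hk1 ρ hρpos (by linarith) H Q (by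
          apply vo.dH.mono
          rintro ⟨t, w⟩ ⟨ht1, ht2⟩
          refine ⟨ht1, ?_⟩
          have hh1 : |(t - xi b (j : ℕ)).im| < b :=
            lt_of_le_of_lt (Complex.abs_im_le_norm _) (lt_of_lt_of_le ht2 (min_le_right _ _))
          rw [Complex.sub_im, xi_im] at hh1
          have hh2 := (abs_lt.mp hh1).1
          show -(κ₀ / 2) < t.im
          linarith) (by
          apply vo.dQ.mono
          rintro ⟨t, w⟩ ⟨ht1, ht2⟩
          refine ⟨ht1, ?_⟩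
          rw [xi_im] at ht2
          exact ht2) (by
          intro s w hw hs hsw
          rw [xi_im] at hsw
          have hh1 : |(s - xi b (j : ℕ)).im| < b :=
            lt_of_le_of_lt (Complex.abs_im_le_norm _) (lt_of_lt_of_le hs (min_le_right _ _))
          rw [Complex.sub_im, xi_im] at hh1
          have hh2 := (abs_lt.mp hh1).1
          have hh3 := vo.eq s w hw (by linarith) hsw
          rw [hh3]
          rw [nG j s w ⟨lt_of_lt_of_le hw (by linarith), by show -(κ₀ / 2) < s.im; linarith, hsw⟩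
            (lt_of_lt_of_le hs (min_le_left _ _))])
      exact ⟨w₀, ρ₂, T, g1, by linarith, g3, g4, g5, g6⟩
    obtain ⟨A, R'', F, hR'', hR''le, dF, eF⟩ := hI (xi b (j : ℕ)) κ r (s₁ j) Z (tI j) (U j) Ij R' (Φ j)
      hR'pos (dΦ' j) hT
    -- shrink once more
    obtain ⟨d₃, hd₃, hd₃'⟩ := Ij.small hR''
    refine locJ_of (Φ := Φ j) (F := F) (A := A) (R := R'') (κ'' := min κ' d₃) Ij hR''
      (lt_min hκ'pos hd₃) dF eF ?_
    intro x hx hxb
    obtain ⟨h1, h2⟩ := eΦ' j x (lt_of_lt_of_le hx (min_le_left _ _)) hxb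
    exact ⟨⟨hd₃' x (lt_of_lt_of_le hx (min_le_right _ _)), h1.2⟩, h2⟩
  choose A d f hloc using hiso
  refine ⟨b, gExt b Γ, A, aout_of hb hκ₀ hκ₀b dΓ eΓ pΓ ?_ hloc⟩
  intro x₀ hx₀ hk
  obtain ⟨d, F, h1, h2, h3⟩ := regΓ x₀ hx₀ hk
  exact ⟨d, F, h1, h2, h3⟩

end Vale.Agent.P097.LR
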