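import Vale.Agent.P097.LR.Defs

/-! # P097 / LR : gluing across the isotropic line (part of ABS) -/

set_option linter.all false

open Filter Topology

namespace Vale.Agent.P097.LR

theorem xi_im (b : ℝ) (k : ℤ) : (xi b k).im = b := by
  have : ((k : ℂ) / 2).im = 0 := by
    have h : ((k : ℂ) / 2) = (((k : ℝ) / 2 : ℝ) : ℂ) := by push_cast; ring
    rw [h]; exact Complex.ofReal_im _
  simp [xi, this]

theorem xi_re (b : ℝ) (k : ℤ) : (xi b k).re = k / 2 := by
  have : ((k : ℂ) / 2).re = (k : ℝ) / 2 := by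
    have h : ((k : ℂ) / 2) = (((k : ℝ) / 2 : ℝ) : ℂ) := by push_cast; ring
    rw [h]; exact Complex.ofReal_re _
  simp [xi, this]

/-- the open half plane below the line -/
def lowB (b : ℝ) : Set ℂ := {x | x.im < b}

theorem isOpen_lowB (b : ℝ) : IsOpen (lowB b) := isOpen_lt Complex.continuous_im continuous_const

theorem neBot_lowB {b : ℝ} {x : ℂ} (hx : x.im = b) : (𝓝[lowB b] x).NeBot := by
  rw [← mem_closure_iff_nhdsWithin_neBot]
  rw [Metric.mem_closure_iff]
  intro e he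
  refine ⟨x - (e / 2 : ℝ) * Complex.I, ?_, ?_⟩
  · have : (x - ((e / 2 : ℝ) : ℂ) * Complex.I).im = b - e / 2 := by
      simp [Complex.sub_im, Complex.mul_im, hx]
    show (x - ((e / 2 : ℝ) : ℂ) * Complex.I).im < b
    rw [this]; linarith
  · rw [Complex.dist_eq]
    have : x - (x - ((e / 2 : ℝ) : ℂ) * Complex.I) = ((e / 2 : ℝ) : ℂ) * Complex.I := by ring
    rw [this, norm_mul, Complex.norm_I, mul_one, Complex.norm_real, Real.norm_eq_abs,
      abs_of_pos (by linarith)]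
    linarith

/-- point of the line with real part `t` -/
noncomputable def pt (b t : ℝ) : ℂ := b * Complex.I + t

theorem pt_im (b t : ℝ) : (pt b t).im = b := by simp [pt]
theorem pt_re (b t : ℝ) : (pt b t).re = t := by simp [pt]

theorem eq_pt {b : ℝ} {x : ℂ} (hx : x.im = b) : x = pt b x.re := by
  apply Complex.ext <;> simp [pt_im, pt_re, hx]

theorem pt_eq_xi_iff {b t : ℝ} {k : ℤ} : pt b t = xi b k ↔ t = k / 2 := by
  constructor
  · intro h; have := congrArg Complex.re h; rwa [pt_re, xi_re] at this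
  · intro h; apply Complex.ext
    · rw [pt_re, xi_re, h]
    · rw [pt_im, xi_im]

/-- boundary value from below -/
noncomputable def bv (b : ℝ) (Γ : ℂ → ℂ) (x : ℂ) : ℂ := limUnder (𝓝[lowB b] x) Γ

theorem bv_eq {b : ℝ} {Γ F : ℂ → ℂ} {x₀ x : ℂ} {d : ℝ} (hF : DifferentiableOn ℂ F (Metric.ball x₀ d))
    (hG : ∀ y ∈ Metric.ball x₀ d, y.im < b → F y = Γ y) (hx : x ∈ Metric.ball x₀ d)
    (hxb : x.im = b) : bv b Γ x = F x := by
  have hc : ContinuousAt F x := (hF.differentiableAt (Metric.isOpen_ball.mem_nhds hx)).continuousAt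
  have h1 : Tendsto F (𝓝[lowB b] x) (𝓝 (F x)) := hc.tendsto.mono_left nhdsWithin_le_nhds
  have h2 : Tendsto Γ (𝓝[lowB b] x) (𝓝 (F x)) := by
    refine h1.congr' ?_
    filter_upwards [self_mem_nhdsWithin,
      mem_nhdsWithin_of_mem_nhds (Metric.isOpen_ball.mem_nhds hx)] with y hy hy2
    exact hG y hy2 hy
  haveI := neBot_lowB hxb
  exact h2.limUnder_eq

/-- shift of a limit -/
theorem bv_add_one {b κ₀ : ℝ} (hb : -κ₀ < b) {Γ : ℂ → ℂ}
    (pΓ : ∀ x : ℂ, -κ₀ < x.im → x.im < b → Γ (x + 1) = Γ x) {x : ℂ} (hx : x.im = b) :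
    bv b Γ (x + 1) = bv b Γ x := by
  have h : map Γ (𝓝[lowB b] (x + 1)) = map Γ (𝓝[lowB b] x) := by
    have e1 : 𝓝[lowB b] (x + 1) = map (fun y => y + 1) (𝓝[lowB b] x) := by
      have hh : map (fun y : ℂ => y + 1) (𝓝[lowB b] x) = 𝓝[(fun y : ℂ => y + 1) '' lowB b] (x + 1) :=
        (Homeomorph.addRight (1 : ℂ)).isEmbedding.map_nhdsWithin_eq (lowB b) x
      rw [hh]
      congr 1
      ext y
      constructor
      · intro hy
        refine ⟨y - 1, ?_, by ring⟩
        show (y - 1).im < b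
        have hy' : y.im < b := hy
        simpa using hy'
      · rintro ⟨z, hz, rfl⟩
        show (z + 1).im < b
        have hz' : z.im < b := hz
        simpa using hz'
    rw [e1, Filter.map_map]
    apply Filter.map_congr
    have hlow : {y : ℂ | -κ₀ < y.im} ∈ 𝓝 x := by
      apply (isOpen_lt continuous_const Complex.continuous_im).mem_nhds
      show -κ₀ < x.im
      rw [hx]; exact hb
    filter_upwards [self_mem_nhdsWithin, mem_nhdsWithin_of_mem_nhds hlow] with y hy hy2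
    exact pΓ y hy2 hy
  unfold bv limUnder
  rw [h]

/-- Data at the two isotropic points. -/
structure LocJ (b : ℝ) (Γ : ℂ → ℂ) (k : ℤ) (A : ℂ) (d : ℝ) (f : ℂ → ℂ) : Prop where
  hd : 0 < d
  df : DifferentiableOn ℂ f (Metric.ball (xi b k) d)
  ev : ∀ τ : ℂ, ‖τ‖ < d → f (xi b k - τ) = f (xi b k + τ)
  eq : ∀ x ∈ Metric.ball (xi b k) d, x.im < b → Γ x = A / (x - xi b k) ^ 2 + f x

theorem LocJ.bv_eq {b : ℝ} {Γ : ℂ → ℂ} {k : ℤ} {A : ℂ} {d : ℝ} {f : ℂ → ℂ}
    (h : LocJ b Γ k A d f) {t : ℝ} (ht : |t - k / 2| < d) (ht0 : t ≠ k / 2) :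
    bv b Γ (pt b t) = A / ((t - k / 2 : ℝ) : ℂ) ^ 2 + f (pt b t) := by
  have hsub : pt b t - xi b k = ((t - k / 2 : ℝ) : ℂ) := by
    apply Complex.ext
    · rw [Complex.sub_re, pt_re, xi_re, Complex.ofReal_re]
    · rw [Complex.sub_im, pt_im, xi_im, Complex.ofReal_im, sub_self]
  have hmem : pt b t ∈ Metric.ball (xi b k) d := by
    rw [mem_ball_iff_norm, hsub, Complex.norm_real, Real.norm_eq_abs]; exact ht
  -- a small ball around `pt b t` avoiding the pole
  set F : ℂ → ℂ := fun x => A / (x - xi b k) ^ 2 + f x with hF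
  have hne : pt b t - xi b k ≠ 0 := by
    rw [hsub]; exact_mod_cast sub_ne_zero.mpr ht0
  have hopen : IsOpen (Metric.ball (xi b k) d ∩ {x : ℂ | x - xi b k ≠ 0}) :=
    Metric.isOpen_ball.inter (isOpen_ne_fun (continuous_id.sub continuous_const) continuous_const)
  obtain ⟨e, he, hsubset⟩ := Metric.isOpen_iff.mp hopen (pt b t) ⟨hmem, hne⟩
  have hdF : DifferentiableOn ℂ F (Metric.ball (pt b t) e) := by
    intro x hx
    have hx' := hsubset hx
    have h1 : DifferentiableAt ℂ f x := h.df.differentiableAt (Metric.isOpen_ball.mem_nhds hx'.1)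
    have h2 : DifferentiableAt ℂ (fun x => A / (x - xi b k) ^ 2) x := by
      apply DifferentiableAt.div (differentiableAt_const _)
      · exact ((differentiableAt_id.sub (differentiableAt_const _)).pow 2)
      · exact pow_ne_zero 2 hx'.2
    exact (h2.add h1).differentiableWithinAt
  have := Vale.Agent.P097.LR.bv_eq (b := b) (Γ := Γ) (F := F) (x₀ := pt b t) (x := pt b t) (d := e) hdF
    (fun y hy hyb => (h.eq y (hsubset hy).1 hyb).symm) (Metric.mem_ball_self he) (pt_im b t)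
  rw [this, hF]
  simp only [hsub]

/-- boundary function in the real variable -/
noncomputable def bvr (b : ℝ) (Γ : ℂ → ℂ) (t : ℝ) : ℂ := bv b Γ (pt b t)

/-- Local extension property at a point. -/
def Ext1 (b : ℝ) (Γ : ℂ → ℂ) (x₀ : ℂ) : Prop :=
  ∃ (d : ℝ) (F : ℂ → ℂ), 0 < d ∧ DifferentiableOn ℂ F (Metric.ball x₀ d) ∧
    ∀ x ∈ Metric.ball x₀ d, x.im < b → F x = Γ x

theorem pt_sub (b s t : ℝ) : pt b s - pt b t = ((s - t : ℝ) : ℂ) := by
  apply Complex.ext
  · rw [Complex.sub_re, pt_re, pt_re, Complex.ofReal_re]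
  · rw [Complex.sub_im, pt_im, pt_im, Complex.ofReal_im, sub_self]

theorem analyticAt_bvr {b : ℝ} {Γ : ℂ → ℂ} {t : ℝ} (h : Ext1 b Γ (pt b t)) :
    AnalyticAt ℝ (bvr b Γ) t := by
  obtain ⟨d, F, hd, hF, hG⟩ := h
  have h1 : AnalyticAt ℂ F (pt b t) :=
    hF.analyticAt (Metric.isOpen_ball.mem_nhds (Metric.mem_ball_self hd))
  have h2 : AnalyticAt ℝ F (pt b t) := h1.restrictScalars
  have h3 : AnalyticAt ℝ (fun s : ℝ => pt b s) t := by
    unfold pt
    exact analyticAt_const.add (Complex.ofRealCLM.analyticAt t)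
  have h4 : AnalyticAt ℝ (fun s : ℝ => F (pt b s)) t := h2.comp' h3
  refine h4.congr ?_
  have : {s : ℝ | |s - t| < d} ∈ 𝓝 t := by
    have := Metric.ball_mem_nhds t hd
    filter_upwards [this] with s hs
    simpa [Real.dist_eq] using hs
  filter_upwards [this] with s hs
  have hmem : pt b s ∈ Metric.ball (pt b t) d := by
    rw [mem_ball_iff_norm, pt_sub, Complex.norm_real, Real.norm_eq_abs]; exact hs
  exact (bv_eq hF hG hmem (pt_im b s)).symm

theorem bvr_add_one {b κ₀ : ℝ} (hb : -κ₀ < b) {Γ : ℂ → ℂ}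
    (pΓ : ∀ x : ℂ, -κ₀ < x.im → x.im < b → Γ (x + 1) = Γ x) (t : ℝ) :
    bvr b Γ (t + 1) = bvr b Γ t := by
  have : pt b (t + 1) = pt b t + 1 := by simp [pt]; ring
  unfold bvr
  rw [this]
  exact bv_add_one hb pΓ (pt_im b t)

/-- The boundary function is even. -/
theorem bvr_even {b κ₀ : ℝ} (hb : -κ₀ < b) {Γ : ℂ → ℂ}
    (pΓ : ∀ x : ℂ, -κ₀ < x.im → x.im < b → Γ (x + 1) = Γ x)
    (hext : ∀ t : ℝ, (∀ k : ℤ, t ≠ k / 2) → Ext1 b Γ (pt b t))
    {A : Fin 2 → ℂ} {d : Fin 2 → ℝ} {f : Fin 2 → ℂ → ℂ}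
    (hloc : ∀ j : Fin 2, LocJ b Γ (j : ℕ) (A j) (d j) (f j)) :
    ∀ t : ℝ, (∀ k : ℤ, t ≠ k / 2) → bvr b Γ (-t) = bvr b Γ t := by
  have per := bvr_add_one hb pΓ
  have perZ : ∀ (n : ℤ) (t : ℝ), bvr b Γ (t + n) = bvr b Γ t := by
    intro n t
    have hp : Function.Periodic (bvr b Γ) 1 := per
    have := hp.int_mul n t
    simpa using this
  -- the difference function
  set D : ℝ → ℂ := fun t => bvr b Γ (-t) - bvr b Γ t with hD
  have hDan : ∀ t : ℝ, (∀ k : ℤ, t ≠ k / 2) → AnalyticAt ℝ D t := by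
    intro t ht
    have h1 : AnalyticAt ℝ (bvr b Γ) (-t) := analyticAt_bvr (hext (-t) (by
      intro k hk
      apply ht (-k)
      push_cast
      linarith))
    have h2 : AnalyticAt ℝ (fun s : ℝ => bvr b Γ (-s)) t := h1.comp' (analyticAt_id.neg)
    exact h2.sub (analyticAt_bvr (hext t ht))
  have hDper : ∀ (n : ℤ) (t : ℝ), D (t + n) = D t := by
    intro n t
    simp only [hD]
    rw [perZ n t]
    have : -(t + (n : ℝ)) = -t + ((-n : ℤ) : ℝ) := by push_cast; ring
    rw [this, perZ]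
  -- zero near the left end of each interval
  have hz0 : ∀ t : ℝ, 0 < t → t < d 0 → D t = 0 := by
    intro t ht ht2
    have h0 := hloc 0
    have e1 := h0.bv_eq (t := t) (by simp; rw [abs_of_pos ht]; exact ht2) (by simp; exact ht.ne')
    have e2 := h0.bv_eq (t := -t) (by simp; rw [abs_of_pos ht]; exact ht2) (by simp; exact ht.ne')
    simp only [hD, bvr]
    rw [e1, e2]
    have hev := h0.ev (t : ℂ) (by rw [Complex.norm_real, Real.norm_eq_abs, abs_of_pos ht]; exact ht2)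
    have hp1 : xi b ((((0 : Fin 2) : ℕ) : ℤ)) + (t : ℂ) = pt b t := by simp [xi, pt]
    have hp2 : xi b ((((0 : Fin 2) : ℕ) : ℤ)) - (t : ℂ) = pt b (-t) := by simp [xi, pt]; ring
    rw [hp1, hp2] at hev
    rw [hev]
    simp
  have hz1 : ∀ t : ℝ, 1 / 2 < t → t < 1 / 2 + d 1 → D t = 0 := by
    intro t ht ht2
    have h1 := hloc 1
    have e1 := h1.bv_eq (t := t) (by
      simp only [Fin.val_one, Nat.cast_one, Int.cast_one]
      rw [abs_of_pos (by linarith)]; linarith) (by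
      simp only [Fin.val_one, Nat.cast_one, Int.cast_one]; exact ht.ne')
    have e2 := h1.bv_eq (t := 1 - t) (by
      simp only [Fin.val_one, Nat.cast_one, Int.cast_one]
      rw [abs_of_neg (by linarith)]; linarith) (by
      simp only [Fin.val_one, Nat.cast_one, Int.cast_one]; intro h; linarith)
    have hm : bvr b Γ (-t) = bvr b Γ (1 - t) := by
      have := per (-t)
      rw [← this]; congr 1; ring
    simp only [hD]
    rw [hm]
    simp only [bvr]
    rw [e1, e2]
    have hev := h1.ev ((t - 1 / 2 : ℝ) : ℂ) (by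
      rw [Complex.norm_real, Real.norm_eq_abs, abs_of_pos (by linarith)]; linarith)
    have hp1 : xi b ((((1 : Fin 2) : ℕ) : ℤ)) + ((t - 1 / 2 : ℝ) : ℂ) = pt b t := by
      simp [xi, pt]
    have hp2 : xi b ((((1 : Fin 2) : ℕ) : ℤ)) - ((t - 1 / 2 : ℝ) : ℂ) = pt b (1 - t) := by
      simp [xi, pt]; ring
    rw [hp1, hp2] at hev
    rw [hev]
    have : ((1 - t - ((((1 : Fin 2) : ℕ) : ℤ) : ℝ) / 2 : ℝ) : ℂ) ^ 2 =
        ((t - ((((1 : Fin 2) : ℕ) : ℤ) : ℝ) / 2 : ℝ) : ℂ) ^ 2 := by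
      push_cast; simp; ring
    rw [this]
    ring
  -- identity theorem on the two intervals
  have hI : ∀ (l : ℝ) (e : ℝ), 0 < e → (∀ t ∈ Set.Ioo l (l + 1 / 2), ∀ k : ℤ, t ≠ k / 2) →
      (∀ t, l < t → t < l + e → D t = 0) → ∀ t ∈ Set.Ioo l (l + 1 / 2), D t = 0 := by
    intro l e he hreg hz t ht
    have han : AnalyticOnNhd ℝ D (Set.Ioo l (l + 1 / 2)) := fun s hs => hDan s (hreg s hs)
    set m := min e (1 / 2) with hm
    have hmpos : 0 < m := lt_min he (by norm_num)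
    have hz₀ : l + m / 2 ∈ Set.Ioo l (l + 1 / 2) := by
      constructor
      · linarith
      · have : m ≤ 1 / 2 := min_le_right _ _
        linarith
    have hev : D =ᶠ[𝓝 (l + m / 2)] 0 := by
      have hmem : Set.Ioo l (l + m) ∈ 𝓝 (l + m / 2) := Ioo_mem_nhds (by linarith) (by linarith)
      filter_upwards [hmem] with s hs
      exact hz s hs.1 (lt_of_lt_of_le hs.2 (by have : m ≤ e := min_le_left _ _; linarith))
    have := han.eqOn_zero_of_preconnected_of_eventuallyEq_zero isPreconnected_Ioo hz₀ hev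
    exact this ht
  have hr1 : ∀ t ∈ Set.Ioo (0 : ℝ) (0 + 1 / 2), ∀ k : ℤ, t ≠ k / 2 := by
    intro t ht k hk
    have h1 : (0 : ℝ) < k := by have := ht.1; linarith
    have h2 : (k : ℝ) < 1 := by have := ht.2; linarith
    have h3 : (0 : ℤ) < k := by exact_mod_cast h1
    have h4 : k < 1 := by exact_mod_cast h2
    omega
  have hr2 : ∀ t ∈ Set.Ioo (1 / 2 : ℝ) (1 / 2 + 1 / 2), ∀ k : ℤ, t ≠ k / 2 := by
    intro t ht k hk
    have h1 : (1 : ℝ) < k := by have := ht.1; linarith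
    have h2 : (k : ℝ) < 2 := by have := ht.2; linarith
    have h3 : (1 : ℤ) < k := by exact_mod_cast h1
    have h4 : k < 2 := by exact_mod_cast h2
    omega
  have hA := hI 0 (d 0) (hloc 0).hd hr1 (fun t h1 h2 => hz0 t h1 (by linarith))
  have hB := hI (1 / 2) (d 1) (hloc 1).hd hr2 hz1
  intro t ht
  have hfr : D t = D (Int.fract t) := by
    have : t = Int.fract t + (⌊t⌋ : ℤ) := (Int.fract_add_floor t).symm
    conv_lhs => rw [this]
    exact hDper _ _
  have h0 : 0 ≤ Int.fract t := Int.fract_nonneg t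
  have h1 : Int.fract t < 1 := Int.fract_lt_one t
  have hne0 : Int.fract t ≠ 0 := by
    intro h
    apply ht (2 * ⌊t⌋)
    have : t = Int.fract t + (⌊t⌋ : ℤ) := (Int.fract_add_floor t).symm
    rw [h] at this
    push_cast
    linarith
  have hne1 : Int.fract t ≠ 1 / 2 := by
    intro h
    apply ht (2 * ⌊t⌋ + 1)
    have : t = Int.fract t + (⌊t⌋ : ℤ) := (Int.fract_add_floor t).symm
    rw [h] at this
    push_cast
    linarith
  have : D t = 0 := by
    rw [hfr]
    rcases lt_or_gt_of_ne hne1 with h | h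
    · exact hA _ ⟨lt_of_le_of_ne h0 (Ne.symm hne0), by linarith⟩
    · exact hB _ ⟨h, by linarith⟩
  simp only [hD] at this
  exact sub_eq_zero.mp this

end Vale.Agent.P097.LR
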