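import Vale.Agent.P097.LR.Glue

/-! # P097 / LR : the extended function (part of ABS) -/

set_option linter.all false

open Filter Topology

namespace Vale.Agent.P097.LR

open Classical in
/-- the extension by reflection in the isotropic points -/
noncomputable def gExt (b : ℝ) (Γ : ℂ → ℂ) (x : ℂ) : ℂ :=
  if x.im < b then Γ x else if x.im = b then bv b Γ x else Γ (2 * b * Complex.I - x)

theorem gExt_lt {b : ℝ} {Γ : ℂ → ℂ} {x : ℂ} (h : x.im < b) : gExt b Γ x = Γ x := by
  unfold gExt; rw [if_pos h]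

theorem gExt_eq {b : ℝ} {Γ : ℂ → ℂ} {x : ℂ} (h : x.im = b) : gExt b Γ x = bv b Γ x := by
  unfold gExt; rw [if_neg (by rw [h]; exact lt_irrefl _), if_pos h]

theorem gExt_gt {b : ℝ} {Γ : ℂ → ℂ} {x : ℂ} (h : b < x.im) :
    gExt b Γ x = Γ (2 * b * Complex.I - x) := by
  unfold gExt; rw [if_neg (not_lt.mpr h.le), if_neg h.ne']

theorem refl_im (b : ℝ) (x : ℂ) : (2 * b * Complex.I - x).im = 2 * b - x.im := by
  simp [Complex.sub_im, Complex.mul_im]

theorem refl_re (b : ℝ) (x : ℂ) : (2 * b * Complex.I - x).re = -x.re := by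
  simp [Complex.sub_re, Complex.mul_re]

theorem refl_pt (b t : ℝ) : 2 * b * Complex.I - pt b t = pt b (-t) := by
  apply Complex.ext
  · rw [refl_re, pt_re, pt_re]
  · rw [refl_im, pt_im, pt_im]; ring

theorem refl_refl (b : ℝ) (x : ℂ) :
    2 * b * Complex.I - (2 * b * Complex.I - x) = x := by ring

theorem gExt_eventually {b κ₀ : ℝ} (hb : 0 < b) (hκ₀ : 0 < κ₀) {Γ : ℂ → ℂ}
    (hev : ∀ t : ℝ, (∀ k : ℤ, t ≠ k / 2) → bvr b Γ (-t) = bvr b Γ t)
    (hext : ∀ t : ℝ, (∀ k : ℤ, t ≠ k / 2) → Ext1 b Γ (pt b t))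
    {t₀ : ℝ} (ht₀ : ∀ k : ℤ, t₀ ≠ k / 2) {d : ℝ} {F : ℂ → ℂ} (hd : 0 < d)
    (hF : DifferentiableOn ℂ F (Metric.ball (pt b t₀) d))
    (hG : ∀ x ∈ Metric.ball (pt b t₀) d, x.im < b → F x = Γ x) :
    gExt b Γ =ᶠ[𝓝 (pt b t₀)] F := by
  obtain ⟨d', F', hd', hF', hG'⟩ := hext (-t₀) (by
    intro k hk; apply ht₀ (-k); push_cast; linarith)
  -- the difference
  set D : ℂ → ℂ := fun x => F x - F' (2 * b * Complex.I - x) with hD
  have hmem' : 2 * b * Complex.I - pt b t₀ ∈ Metric.ball (pt b (-t₀)) d' := by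
    rw [refl_pt]; exact Metric.mem_ball_self hd'
  have han : AnalyticAt ℂ D (pt b t₀) := by
    have h1 : AnalyticAt ℂ F (pt b t₀) :=
      hF.analyticAt (Metric.isOpen_ball.mem_nhds (Metric.mem_ball_self hd))
    have h2 : AnalyticAt ℂ F' (2 * b * Complex.I - pt b t₀) :=
      hF'.analyticAt (Metric.isOpen_ball.mem_nhds hmem')
    have h3 : AnalyticAt ℂ (fun x : ℂ => 2 * b * Complex.I - x) (pt b t₀) :=
      analyticAt_const.sub analyticAt_id
    exact h1.sub (h2.comp' h3)
  -- regular points near t₀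
  have hregev : ∀ᶠ t : ℝ in 𝓝 t₀, ∀ k : ℤ, t ≠ (k : ℝ) / 2 := by
    have hcl : IsClosed (Set.range (fun k : ℤ => (k : ℝ) / 2)) := by
      have h1 : IsClosed (Set.range ((↑) : ℤ → ℝ)) := Int.isClosedEmbedding_coe_real.isClosed_range
      have h2 : Set.range (fun k : ℤ => (k : ℝ) / 2) = (fun x : ℝ => x * 2) ⁻¹' Set.range ((↑) : ℤ → ℝ) := by
        ext x
        constructor
        · rintro ⟨k, rfl⟩; exact ⟨k, by simp⟩
        · rintro ⟨k, hk⟩; exact ⟨k, by simp only at hk ⊢; linarith⟩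
      rw [h2]
      exact h1.preimage (continuous_id.mul continuous_const)
    have : (Set.range (fun k : ℤ => (k : ℝ) / 2))ᶜ ∈ 𝓝 t₀ := hcl.isOpen_compl.mem_nhds (by
      rintro ⟨k, hk⟩; exact ht₀ k hk.symm)
    filter_upwards [this] with t ht k hk
    exact ht ⟨k, hk.symm⟩
  have hcont : Continuous (fun t : ℝ => pt b t) := by
    unfold pt; exact continuous_const.add Complex.continuous_ofReal
  have hzero : ∀ᶠ t in 𝓝 t₀, D (pt b t) = 0 := by
    have h1 : ∀ᶠ t in 𝓝 t₀, pt b t ∈ Metric.ball (pt b t₀) d :=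
      hcont.continuousAt.eventually (Metric.ball_mem_nhds _ hd)
    have h2 : ∀ᶠ t in 𝓝 t₀, pt b (-t) ∈ Metric.ball (pt b (-t₀)) d' :=
      (hcont.comp continuous_neg).continuousAt.eventually (Metric.ball_mem_nhds _ hd')
    filter_upwards [hregev, h1, h2] with t ht ha hb'
    have e1 : bvr b Γ t = F (pt b t) := bv_eq hF hG ha (pt_im b t)
    have e2 : bvr b Γ (-t) = F' (pt b (-t)) := bv_eq hF' hG' hb' (pt_im b (-t))
    simp only [hD]
    rw [refl_pt, ← e1, ← e2, hev t ht, sub_self]
  have hfreq : ∃ᶠ x in 𝓝[≠] (pt b t₀), D x = 0 := by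
    have ht : Tendsto (fun t : ℝ => pt b t) (𝓝[≠] t₀) (𝓝[≠] (pt b t₀)) := by
      apply tendsto_nhdsWithin_of_tendsto_nhds_of_eventually_within
      · exact hcont.continuousAt.tendsto.mono_left nhdsWithin_le_nhds
      · filter_upwards [self_mem_nhdsWithin] with t ht h
        apply ht
        have := congrArg Complex.re h
        rwa [pt_re, pt_re] at this
    apply ht.frequently
    exact (hzero.filter_mono nhdsWithin_le_nhds).frequently
  have hDz : ∀ᶠ x in 𝓝 (pt b t₀), D x = 0 := han.frequently_zero_iff_eventually_zero.mp hfreq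
  have hball : ∀ᶠ x in 𝓝 (pt b t₀), x ∈ Metric.ball (pt b t₀) d := Metric.ball_mem_nhds _ hd
  have hball' : ∀ᶠ x in 𝓝 (pt b t₀), 2 * b * Complex.I - x ∈ Metric.ball (pt b (-t₀)) d' := by
    have hc : Continuous (fun x : ℂ => 2 * b * Complex.I - x) := continuous_const.sub continuous_id
    exact hc.continuousAt.eventually (Metric.isOpen_ball.mem_nhds hmem')
  filter_upwards [hDz, hball, hball'] with x h1 h2 h3
  rcases lt_trichotomy x.im b with h | h | h
  · rw [gExt_lt h]; exact (hG x h2 h).symm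
  · rw [gExt_eq h]; exact bv_eq hF hG h2 h
  · rw [gExt_gt h]
    have h4 : (2 * b * Complex.I - x).im < b := by rw [refl_im]; linarith
    rw [← hG' _ h3 h4]
    simp only [hD] at h1
    exact (sub_eq_zero.mp h1).symm

theorem aout_of {b κ₀ : ℝ} (hb : 0 < b) (hκ₀ : 0 < κ₀) (hκb : κ₀ < b) {γ Γ : ℂ → ℂ}
    (dΓ : DifferentiableOn ℂ Γ {x | -κ₀ < x.im ∧ x.im < b})
    (eΓ : ∀ x : ℂ, |x.im| < κ₀ → x.im < b → Γ x = γ x)
    (pΓ : ∀ x : ℂ, -κ₀ < x.im → x.im < b → Γ (x + 1) = Γ x)
    (hext : ∀ x₀ : ℂ, x₀.im = b → (∀ k : ℤ, x₀ ≠ xi b k) → Ext1 b Γ x₀)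
    {A : Fin 2 → ℂ} {d : Fin 2 → ℝ} {f : Fin 2 → ℂ → ℂ}
    (hloc : ∀ j : Fin 2, LocJ b Γ (j : ℕ) (A j) (d j) (f j)) :
    AOut b b κ₀ γ (gExt b Γ) A := by
  have hextt : ∀ t : ℝ, (∀ k : ℤ, t ≠ k / 2) → Ext1 b Γ (pt b t) := by
    intro t ht
    apply hext _ (pt_im b t)
    intro k hk
    exact ht k (pt_eq_xi_iff.mp hk)
  have hev := bvr_even (b := b) (κ₀ := κ₀) (by linarith) pΓ hextt hloc
  have hopenlow : IsOpen {x : ℂ | -κ₀ < x.im ∧ x.im < b} :=
    (isOpen_lt continuous_const Complex.continuous_im).inter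
      (isOpen_lt Complex.continuous_im continuous_const)
  have hre : ∀ x : ℂ, x.im = b → (∀ k : ℤ, x ≠ xi b k) → ∀ k : ℤ, x.re ≠ k / 2 := by
    intro x hx hk k h
    apply hk k
    rw [eq_pt hx]
    exact pt_eq_xi_iff.mpr h
  have line_diff : ∀ x : ℂ, x.im = b → (∀ k : ℤ, x ≠ xi b k) → DifferentiableAt ℂ (gExt b Γ) x := by
    intro x hx hk
    have hx' := eq_pt hx
    have hreg := hre x hx hk
    obtain ⟨d₁, F, hd₁, hF, hG⟩ := hextt x.re hreg
    have := gExt_eventually hb hκ₀ hev hextt hreg hd₁ hF hG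
    rw [hx']
    exact this.differentiableAt_iff.mpr
      (hF.differentiableAt (Metric.isOpen_ball.mem_nhds (Metric.mem_ball_self hd₁)))
  refine ⟨hb, ?_, ?_, ?_, ?_, ?_⟩
  · -- differentiability
    rintro x ⟨hx1, hx2, hx3⟩
    apply DifferentiableAt.differentiableWithinAt
    rcases lt_trichotomy x.im b with h | h | h
    · have h1 : gExt b Γ =ᶠ[𝓝 x] Γ := by
        filter_upwards [(isOpen_lt Complex.continuous_im continuous_const).mem_nhds
          (show x ∈ {y : ℂ | y.im < b} from h)] with y hy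
        exact gExt_lt hy
      exact h1.differentiableAt_iff.mpr (dΓ.differentiableAt (hopenlow.mem_nhds ⟨hx1, h⟩))
    · exact line_diff x h hx3
    · have h1 : gExt b Γ =ᶠ[𝓝 x] fun y => Γ (2 * b * Complex.I - y) := by
        filter_upwards [(isOpen_lt continuous_const Complex.continuous_im).mem_nhds
          (show x ∈ {y : ℂ | b < y.im} from h)] with y hy
        exact gExt_gt hy
      refine h1.differentiableAt_iff.mpr ?_
      have h2 : DifferentiableAt ℂ Γ (2 * b * Complex.I - x) := by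
        apply dΓ.differentiableAt
        apply hopenlow.mem_nhds
        constructor
        · show -κ₀ < (2 * b * Complex.I - x).im
          rw [refl_im]; linarith
        · show (2 * b * Complex.I - x).im < b
          rw [refl_im]; linarith
      exact h2.comp x ((differentiableAt_const _).sub differentiableAt_id)
  · intro x hx
    have h1 : x.im < b := lt_trans (lt_of_abs_lt hx) hκb
    rw [gExt_lt h1]
    exact eΓ x hx h1
  · intro x hx1 hx2
    have him : (x + 1).im = x.im := by simp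
    rcases lt_trichotomy x.im b with h | h | h
    · rw [gExt_lt h, gExt_lt (by rw [him]; exact h)]; exact pΓ x hx1 h
    · rw [gExt_eq h, gExt_eq (by rw [him]; exact h)]
      exact bv_add_one (by linarith) pΓ h
    · rw [gExt_gt h, gExt_gt (by rw [him]; exact h)]
      have e : 2 * b * Complex.I - x = (2 * b * Complex.I - (x + 1)) + 1 := by ring
      rw [e]
      refine (pΓ _ ?_ ?_).symm
      · rw [refl_im, him]; linarith
      · rw [refl_im, him]; linarith
  · intro x hx hk
    rcases lt_trichotomy x.im b with h | h | h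
    · rw [gExt_lt h, gExt_gt (by rw [refl_im]; linarith), refl_refl]
    · rw [gExt_eq h, gExt_eq (by rw [refl_im]; linarith)]
      have hreg := hre x h hk
      rw [eq_pt h, refl_pt]
      exact hev x.re hreg
    · rw [gExt_gt h, gExt_lt (by rw [refl_im]; linarith)]
  · intro j
    have L := hloc j
    refine ⟨f j, L.df.analyticAt (Metric.isOpen_ball.mem_nhds (Metric.mem_ball_self L.hd)), ?_⟩
    have hcap : Metric.ball (xi b (j : ℕ)) (min (d j) b) ∈ 𝓝 (xi b ((j : ℕ) : ℤ)) :=
      Metric.ball_mem_nhds _ (lt_min L.hd hb)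
    filter_upwards [self_mem_nhdsWithin, mem_nhdsWithin_of_mem_nhds hcap] with x hx hxb
    have hxd : x ∈ Metric.ball (xi b (j : ℕ)) (d j) :=
      Metric.ball_subset_ball (min_le_left _ _) hxb
    have hxb' : ‖x - xi b (j : ℕ)‖ < b :=
      lt_of_lt_of_le (mem_ball_iff_norm.mp hxb) (min_le_right _ _)
    rcases lt_trichotomy x.im b with h | h | h
    · rw [gExt_lt h]; exact L.eq x hxd h
    · rw [gExt_eq h]
      have hxp := eq_pt h
      have hne : x.re ≠ (((j : ℕ) : ℤ) : ℝ) / 2 := by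
        intro hh
        apply hx
        rw [hxp]
        exact pt_eq_xi_iff.mpr hh
      have hlt : |x.re - (((j : ℕ) : ℤ) : ℝ) / 2| < d j := by
        have := mem_ball_iff_norm.mp hxd
        have h2 : x - xi b (j : ℕ) = ((x.re - (((j : ℕ) : ℤ) : ℝ) / 2 : ℝ) : ℂ) := by
          apply Complex.ext
          · rw [Complex.sub_re, xi_re, Complex.ofReal_re]
          · rw [Complex.sub_im, xi_im, Complex.ofReal_im, h, sub_self]
        rw [h2, Complex.norm_real, Real.norm_eq_abs] at this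
        exact this
      have h3 := L.bv_eq hlt hne
      have h2 : x - xi b (j : ℕ) = ((x.re - (((j : ℕ) : ℤ) : ℝ) / 2 : ℝ) : ℂ) := by
        apply Complex.ext
        · rw [Complex.sub_re, xi_re, Complex.ofReal_re]
        · rw [Complex.sub_im, xi_im, Complex.ofReal_im, h, sub_self]
      rw [h2]
      rw [← hxp] at h3
      exact h3
    · rw [gExt_gt h]
      set τ : ℂ := x - xi b (j : ℕ) with hτ
      have hxτ : x = xi b (j : ℕ) + τ := by rw [hτ]; ring
      have hτim : τ.im = x.im - b := by rw [hτ, Complex.sub_im, xi_im]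
      have hτb : ‖τ‖ < b := hxb'
      have hτd : ‖τ‖ < d j := mem_ball_iff_norm.mp hxd
      have hτimb : τ.im < b := lt_of_le_of_lt (le_trans (le_abs_self _) (Complex.abs_im_le_norm τ)) hτb
      -- periodicity moves `2 b i - x` to `xi - τ`
      have hper : Γ (2 * b * Complex.I - x) = Γ (xi b (j : ℕ) - τ) := by
        have him2 : (2 * b * Complex.I - x).im = b - τ.im := by rw [refl_im, hτim]; ring
        fin_cases j
        · congr 1
          rw [hxτ]
          simp [xi]
          ring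
        · have e : xi b (((1 : Fin 2) : ℕ) : ℤ) - τ = (2 * b * Complex.I - x) + 1 := by
            rw [hxτ]
            simp [xi]
            ring
          have := pΓ (2 * b * Complex.I - x) (by rw [him2]; linarith) (by
            rw [him2]
            have : 0 < τ.im := by rw [hτim]; linarith
            linarith)
          simp only at e ⊢
          rw [← this]
          congr 1
          exact e.symm
      rw [hper]
      have hmem : xi b (j : ℕ) - τ ∈ Metric.ball (xi b (j : ℕ)) (d j) := by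
        rw [mem_ball_iff_norm]
        have : xi b (j : ℕ) - τ - xi b (j : ℕ) = -τ := by ring
        rw [this, norm_neg]; exact hτd
      have him3 : (xi b (j : ℕ) - τ).im < b := by
        rw [Complex.sub_im, xi_im]
        have : 0 < τ.im := by rw [hτim]; linarith
        linarith
      rw [L.eq _ hmem him3, L.ev τ hτd, ← hxτ]
      have : xi b (j : ℕ) - τ - xi b (j : ℕ) = -τ := by ring
      rw [this, neg_sq]

end Vale.Agent.P097.LR
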